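import Vale.Agent.P229.Final.Rescale

/-
P229: bounds and supports for the island template and the square bump.
-/

namespace Vale.Agent.P229.Final

open Vale.Agent.P229
open scoped ContDiff

lemma smooth_rsq : ContDiff ℝ ∞ rsq := by unfold rsq; fun_prop

lemma smooth_blob : ContDiff ℝ ∞ blob := (bump1.contDiff).comp smooth_rsq

lemma smooth_island : ContDiff ℝ ∞ island := by
  have := (bumpBig.contDiff (n := (⊤ : ℕ∞))).comp smooth_rsq
  unfold island
  exact this.mul ((smooth_rsq.div_const 2).sub ((smooth_rsq.pow 2).div_const 8))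

lemma rsq_nonneg (z : P2) : 0 ≤ rsq z := by unfold rsq; positivity

lemma sq_norm_le_rsq (z : P2) : ‖z‖ ^ 2 ≤ rsq z := by
  rw [Prod.norm_def, Real.norm_eq_abs, Real.norm_eq_abs]
  rcases max_choice |z.1| |z.2| with h | h <;> rw [h, sq_abs] <;> unfold rsq <;>
    nlinarith [sq_nonneg z.1, sq_nonneg z.2]

lemma blob_zero {z : P2} (h : 1 ≤ ‖z‖) : blob z = 0 := by
  apply bump1.zero_of_le_dist
  have h1 : (1 : ℝ) ≤ rsq z := le_trans (by nlinarith) (sq_norm_le_rsq z)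
  rw [Real.dist_eq, sub_zero, abs_of_nonneg (rsq_nonneg z)]
  exact h1

lemma island_zero {z : P2} (h : 7 ≤ ‖z‖) : island z = 0 := by
  have h1 : (39 : ℝ) ≤ rsq z := le_trans (by nlinarith) (sq_norm_le_rsq z)
  have : bumpBig (rsq z) = 0 := bumpBig.zero_of_le_dist
    (by rw [Real.dist_eq, sub_zero, abs_of_nonneg (rsq_nonneg z)]; exact h1)
  simp [island, this]

lemma template_zero {s lam : ℝ} (hl : 1 ≤ lam) {z : P2} (h : 7 ≤ ‖z‖) :
    template s lam z = 0 := by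
  have hb : blob (lam * z.1, lam * z.2) = 0 := by
    apply blob_zero
    have : ((lam * z.1, lam * z.2) : P2) = lam • z := rfl
    rw [this, norm_smul, Real.norm_eq_abs, abs_of_pos (by linarith)]
    nlinarith
  simp [template, island_zero h, hb]

lemma smooth_template (s lam : ℝ) : ContDiff ℝ ∞ (template s lam) := by
  unfold template
  exact smooth_island.add (contDiff_const.mul (smooth_blob.comp (by fun_prop)))

lemma template_rot {cs sn : ℝ} (hcs : cs ^ 2 + sn ^ 2 = 1) (s lam : ℝ) (X : P2) :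
    template s lam (rot 1 cs sn X) = template s lam X := by
  have h1 : rsq (rot 1 cs sn X) = rsq X := rsq_rot hcs X
  have h2 : ∀ Y : P2, rsq (lam * Y.1, lam * Y.2) = lam ^ 2 * rsq Y := fun Y => by
    simp only [rsq]; ring
  simp only [template, island, blob, h2, h1]

lemma exists_iter_bound {f : P2 → ℝ} (hf : ContDiff ℝ ∞ f) {R : ℝ}
    (h0 : ∀ z, R ≤ ‖z‖ → f z = 0) (k : ℕ) :
    ∃ C : ℝ, 0 ≤ C ∧ ∀ z, ‖iteratedFDeriv ℝ k f z‖ ≤ C := by
  have hc : HasCompactSupport f := by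
    refine HasCompactSupport.intro (isCompact_closedBall (0 : P2) R) fun z hz => h0 z ?_
    rw [Metric.mem_closedBall, dist_zero_right, not_le] at hz
    exact hz.le
  have hcont := hf.continuous_iteratedFDeriv (m := k) (WithTop.coe_le_coe.2 le_top)
  obtain ⟨C, hC⟩ := hcont.bounded_above_of_compact_support (hc.iteratedFDeriv k)
  exact ⟨max C 0, le_max_right _ _, fun z => (hC z).trans (le_max_left _ _)⟩

lemma norm_iter_affine {f : P2 → ℝ} (hf : ContDiff ℝ ∞ f) {ρ : ℝ} (hρ : 0 ≤ ρ) (b : P2) (k : ℕ)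
    {C : ℝ} (hC : ∀ z, ‖iteratedFDeriv ℝ k f z‖ ≤ C) (z : P2) :
    ‖iteratedFDeriv ℝ k (fun v => f (ρ • v + b)) z‖ ≤ C * ρ ^ k := by
  let g : P2 →L[ℝ] P2 := ρ • ContinuousLinearMap.id ℝ P2
  have hf' : ContDiff ℝ ∞ (fun u => f (u + b)) := hf.comp (contDiff_id.add contDiff_const)
  have e := ContinuousLinearMap.iteratedFDeriv_comp_right g hf' z
    (i := k) (WithTop.coe_le_coe.2 le_top)
  show ‖iteratedFDeriv ℝ k ((fun u => f (u + b)) ∘ g) z‖ ≤ _
  rw [e, iteratedFDeriv_comp_add_right]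
  refine (ContinuousMultilinearMap.norm_compContinuousLinearMap_le _ _).trans ?_
  refine mul_le_mul (hC _) ?_ (by positivity) ((norm_nonneg _).trans (hC z))
  have hg : ‖g‖ ≤ ρ := ContinuousLinearMap.opNorm_le_bound _ hρ fun v => by
    simp [g, norm_smul, abs_of_nonneg hρ]
  simpa using Finset.prod_le_prod (s := (Finset.univ : Finset (Fin k)))
    (fun _ _ => norm_nonneg g) (fun _ _ => hg)

/-- An island of radius `r` around `c`. -/
noncomputable def isl (c : P2) (r η s lam : ℝ) (z : P2) : ℝ :=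
  r ^ 2 * η * template s lam (r⁻¹ • (z - c))

lemma smooth_isl (c : P2) (r η s lam : ℝ) : ContDiff ℝ ∞ (isl c r η s lam) :=
  contDiff_const.mul ((smooth_template s lam).comp (by fun_prop))

lemma isl_zero {c : P2} {r η s lam : ℝ} (hr : 0 < r) (hl : 1 ≤ lam) {z : P2}
    (h : 7 * r ≤ ‖z - c‖) : isl c r η s lam z = 0 := by
  rw [isl, template_zero hl, mul_zero]
  rw [norm_smul, Real.norm_eq_abs, abs_of_pos (inv_pos.2 hr), inv_mul_eq_div, le_div_iff₀ hr]
  linarith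

lemma isl_bound (k : ℕ) : ∃ C : ℝ, 0 ≤ C ∧ ∀ (N : ℕ) (c : P2) (r η lam : ℝ), k ≤ N →
    0 < r → 0 ≤ η → 1 ≤ lam → ∀ z, ‖iteratedFDeriv ℝ k (isl c r η (lam ^ N)⁻¹ lam) z‖
      ≤ r ^ 2 * η * r⁻¹ ^ k * C := by
  obtain ⟨C1, h1, hC1⟩ := exists_iter_bound smooth_island (R := 7) (fun z => island_zero) k
  obtain ⟨C2, h2, hC2⟩ := exists_iter_bound smooth_blob (R := 1) (fun z => blob_zero) k
  refine ⟨C1 + C2, by linarith, fun N c r η lam hk hr hη hl z => ?_⟩
  have hl0 : 0 < lam := by linarith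
  have ri : 0 ≤ r⁻¹ := by positivity
  let b : P2 := -(r⁻¹ • c)
  have e : isl c r η (lam ^ N)⁻¹ lam = fun v => (r ^ 2 * η) • (island (r⁻¹ • v + b)
      + ((lam ^ N)⁻¹ / lam ^ 2) • blob ((lam * r⁻¹) • v + lam • b)) := by
    funext v
    have : r⁻¹ • (v - c) = r⁻¹ • v + b := by simp [b, sub_eq_add_neg]
    simp only [isl, template, this, smul_eq_mul]
    rw [← smul_smul, ← smul_add]
    rfl
  have s1 : ContDiff ℝ ∞ (fun v => island (r⁻¹ • v + b)) := smooth_island.comp (by fun_prop)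
  have s2 : ContDiff ℝ ∞ (fun v => blob ((lam * r⁻¹) • v + lam • b)) :=
    smooth_blob.comp (by fun_prop)
  have s2' : ContDiff ℝ ∞ (fun v => ((lam ^ N)⁻¹ / lam ^ 2) • blob ((lam * r⁻¹) • v + lam • b)) :=
    s2.const_smul _
  have hkk : (k : WithTop ℕ∞) ≤ (∞ : WithTop ℕ∞) := WithTop.coe_le_coe.2 le_top
  rw [e, iteratedFDeriv_const_smul_apply' ((s1.add s2').of_le hkk).contDiffAt,
    fun_iteratedFDeriv_add_apply (s1.of_le hkk).contDiffAt (s2'.of_le hkk).contDiffAt,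
    iteratedFDeriv_const_smul_apply' (s2.of_le hkk).contDiffAt, norm_smul,
    Real.norm_eq_abs, abs_of_nonneg (by positivity), mul_assoc (r ^ 2 * η)]
  refine mul_le_mul_of_nonneg_left ?_ (by positivity)
  refine (norm_add_le _ _).trans ?_
  rw [norm_smul, Real.norm_eq_abs, abs_of_nonneg (by positivity)]
  have a1 := norm_iter_affine smooth_island ri b k hC1 z
  have a2 := norm_iter_affine smooth_blob (by positivity : 0 ≤ lam * r⁻¹) (lam • b) k hC2 z
  have hq : (lam ^ N)⁻¹ / lam ^ 2 * lam ^ k ≤ 1 := by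
    rw [div_mul_eq_mul_div, inv_mul_eq_div, div_div, div_le_one (by positivity), ← pow_add]
    exact pow_le_pow_right₀ hl (by omega)
  have := mul_le_mul_of_nonneg_left a2 (show (0:ℝ) ≤ (lam ^ N)⁻¹ / lam ^ 2 by positivity)
  have hfin : (lam ^ N)⁻¹ / lam ^ 2 * (C2 * (lam * r⁻¹) ^ k) ≤ C2 * r⁻¹ ^ k := by
    rw [mul_pow]
    calc (lam ^ N)⁻¹ / lam ^ 2 * (C2 * (lam ^ k * r⁻¹ ^ k))
        = ((lam ^ N)⁻¹ / lam ^ 2 * lam ^ k) * (C2 * r⁻¹ ^ k) := by ring
      _ ≤ 1 * (C2 * r⁻¹ ^ k) := mul_le_mul_of_nonneg_right hq (by positivity)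
      _ = _ := one_mul _
  nlinarith

/-- The bump inside a square. -/
noncomputable def sqb (c : P2) (r η : ℝ) (z : P2) : ℝ :=
  -η * blob ((z.1 - c.1) / r, (z.2 - c.2) / r)

lemma smooth_sqb (c : P2) (r η : ℝ) : ContDiff ℝ ∞ (sqb c r η) :=
  contDiff_const.mul (smooth_blob.comp (by fun_prop))

lemma sqb_zero {c : P2} {r η : ℝ} (hr : 0 < r) {z : P2} (h : r ≤ ‖z - c‖) : sqb c r η z = 0 := by
  have e : (((z.1 - c.1) / r, (z.2 - c.2) / r) : P2) = r⁻¹ • (z - c) := by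
    ext <;> simp [div_eq_inv_mul]
  rw [sqb, e, blob_zero, mul_zero]
  rw [norm_smul, Real.norm_eq_abs, abs_of_pos (inv_pos.2 hr), inv_mul_eq_div, le_div_iff₀ hr]
  linarith

lemma sqb_bound (k : ℕ) : ∃ C : ℝ, 0 ≤ C ∧ ∀ (c : P2) (r η : ℝ), 0 < r → 0 ≤ η →
    ∀ z, ‖iteratedFDeriv ℝ k (sqb c r η) z‖ ≤ η * r⁻¹ ^ k * C := by
  obtain ⟨C2, h2, hC2⟩ := exists_iter_bound smooth_blob (R := 1) (fun z => blob_zero) k
  refine ⟨C2, h2, fun c r η hr hη z => ?_⟩
  have e : sqb c r η = fun v => (-η) • blob (r⁻¹ • v + -(r⁻¹ • c)) := by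
    funext v
    have e1 : (((v.1 - c.1) / r, (v.2 - c.2) / r) : P2) = r⁻¹ • v + -(r⁻¹ • c) := by
      ext <;> simp [div_eq_inv_mul] <;> ring
    rw [sqb, e1, smul_eq_mul]
  have s2 : ContDiff ℝ ∞ (fun v => blob (r⁻¹ • v + -(r⁻¹ • c))) := smooth_blob.comp (by fun_prop)
  rw [e, iteratedFDeriv_const_smul_apply' ((s2.of_le (WithTop.coe_le_coe.2 le_top)).contDiffAt),
    norm_smul, Real.norm_eq_abs, abs_neg, abs_of_nonneg hη, mul_assoc]
  refine mul_le_mul_of_nonneg_left ?_ hη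
  rw [mul_comm]
  exact norm_iter_affine smooth_blob (by positivity) _ k hC2 z

end Vale.Agent.P229.Final
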