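import Vale.Agent.P229.Final.Hess

/-
P229: jet bounds for height functions and for the normalised remainder.
-/

namespace Vale.Agent.P229.Final

open Vale.Agent.P229
open scoped ContDiff

variable {f : P2 → ℝ} {z : P2}

lemma ik (k : ℕ) : (k : WithTop ℕ∞) ≤ (∞ : WithTop ℕ∞) := WithTop.coe_le_coe.2 le_top

lemma second_apply (hf : ContDiff ℝ ∞ f) (z v w : P2) :
    fderiv ℝ (fun u => fderiv ℝ f u v) z w = iteratedFDeriv ℝ 2 f z ![w, v] := by
  have hd : DifferentiableAt ℝ (fderiv ℝ f) z :=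
    (((hf.fderiv_right (m := ∞) (by simp))).differentiable (by simp)) z
  rw [iteratedFDeriv_two_apply, fderiv_clm_apply hd (differentiableAt_const v)]
  simp

lemma abs_second (hf : ContDiff ℝ ∞ f) (z : P2) :
    |dp (dp f) z| ≤ ‖iteratedFDeriv ℝ 2 f z‖ ∧ |dy (dp f) z| ≤ ‖iteratedFDeriv ℝ 2 f z‖ ∧
      |dy (dy f) z| ≤ ‖iteratedFDeriv ℝ 2 f z‖ := by
  have h : ∀ v w : P2, ‖v‖ ≤ 1 → ‖w‖ ≤ 1 →
      |fderiv ℝ (fun u => fderiv ℝ f u v) z w| ≤ ‖iteratedFDeriv ℝ 2 f z‖ := by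
    intro v w hv hw
    rw [second_apply hf, ← Real.norm_eq_abs]
    refine (ContinuousMultilinearMap.le_opNorm _ _).trans ?_
    simp only [Fin.prod_univ_two, Matrix.cons_val_zero, Matrix.cons_val_one]
    exact mul_le_of_le_one_right (norm_nonneg _) (mul_le_one₀ hw (norm_nonneg _) hv)
  have e1 : ‖((1, 0) : P2)‖ ≤ 1 := by simp [Prod.norm_def]
  have e2 : ‖((0, 1) : P2)‖ ≤ 1 := by simp [Prod.norm_def]
  exact ⟨h _ _ e1 e1, h _ _ e1 e2, h _ _ e2 e2⟩

lemma norm_second_le (hf : ContDiff ℝ ∞ f) (z : P2) :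
    ‖iteratedFDeriv ℝ 2 f z‖ ≤ |dp (dp f) z| + 2 * |dy (dp f) z| + |dy (dy f) z| := by
  refine ContinuousMultilinearMap.opNorm_le_bound (by positivity) fun m => ?_
  have e : ∀ u : P2, u = u.1 • ((1, 0) : P2) + u.2 • ((0, 1) : P2) := fun u => by simp
  have s := dy_dp_eq (hf.of_le (ik 2)) z
  have ev : iteratedFDeriv ℝ 2 f z m
      = (m 0).1 * ((m 1).1 * dp (dp f) z + (m 1).2 * dy (dp f) z)
        + (m 0).2 * ((m 1).1 * dy (dp f) z + (m 1).2 * dy (dy f) z) := by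
    have q : ∀ v w : P2, fderiv ℝ (fderiv ℝ f) z w v = fderiv ℝ (fun u => fderiv ℝ f u v) z w := by
      intro v w
      have hd : DifferentiableAt ℝ (fderiv ℝ f) z :=
        (((hf.fderiv_right (m := ∞) (by simp))).differentiable (by simp)) z
      rw [fderiv_clm_apply hd (differentiableAt_const v)]; simp
    rw [iteratedFDeriv_two_apply]
    conv_lhs => rw [e (m 0), e (m 1)]
    simp only [map_add, map_smul, _root_.add_apply, _root_.smul_apply, smul_eq_mul, q]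
    show _ = _
    change (m 1).1 * ((m 0).1 * dp (dp f) z + (m 0).2 * dy (dp f) z)
      + (m 1).2 * ((m 0).1 * dp (dy f) z + (m 0).2 * dy (dy f) z) = _
    rw [← s]; ring
  rw [ev, Fin.prod_univ_two, Real.norm_eq_abs]
  have a1 : |(m 0).1| ≤ ‖m 0‖ := Real.norm_eq_abs (m 0).1 ▸ norm_fst_le (m 0)
  have a2 : |(m 0).2| ≤ ‖m 0‖ := Real.norm_eq_abs (m 0).2 ▸ norm_snd_le (m 0)
  have b1 : |(m 1).1| ≤ ‖m 1‖ := Real.norm_eq_abs (m 1).1 ▸ norm_fst_le (m 1)
  have b2 : |(m 1).2| ≤ ‖m 1‖ := Real.norm_eq_abs (m 1).2 ▸ norm_snd_le (m 1)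
  have q : ∀ {s t D : ℝ}, |s| ≤ ‖m 0‖ → |t| ≤ ‖m 1‖ → |s * (t * D)| ≤ |D| * (‖m 0‖ * ‖m 1‖) := by
    intro s t D hs ht
    rw [abs_mul, abs_mul, ← mul_assoc, mul_comm _ |D|]
    exact mul_le_mul_of_nonneg_left (mul_le_mul hs ht (abs_nonneg _) (norm_nonneg _)) (abs_nonneg _)
  rw [mul_add, mul_add]
  refine ((abs_add_le _ _).trans (add_le_add (abs_add_le _ _) (abs_add_le _ _))).trans ?_
  linarith [q (D := dp (dp f) z) a1 b1, q (D := dy (dp f) z) a1 b2, q (D := dy (dp f) z) a2 b1,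
    q (D := dy (dy f) z) a2 b2]

/-- The model height. -/
noncomputable def para (v : P2) : ℝ := v.1 ^ 2 / 2

lemma smooth_para : ContDiff ℝ ∞ para := by unfold para; fun_prop

lemma fderiv_para (v : P2) : fderiv ℝ para v = v.1 • ContinuousLinearMap.fst ℝ ℝ ℝ := by
  have h := ((hasFDerivAt_fst (𝕜 := ℝ) (p := v)).pow 2).const_mul (1 / 2 : ℝ)
  have e : para = fun u => (1 / 2 : ℝ) * (u.1 ^ 2) := by funext u; unfold para; ring
  rw [e, h.fderiv]
  ext <;> simp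

lemma iter_para {k : ℕ} (hk : 3 ≤ k) (v : P2) : iteratedFDeriv ℝ k para v = 0 := by
  obtain ⟨j, rfl⟩ : ∃ j, k = j + 3 := ⟨k - 3, by omega⟩
  rw [← norm_eq_zero, ← norm_iteratedFDeriv_fderiv, ← norm_iteratedFDeriv_fderiv]
  let B : P2 →L[ℝ] (P2 →L[ℝ] ℝ) :=
    (ContinuousLinearMap.fst ℝ ℝ ℝ).smulRight (ContinuousLinearMap.fst ℝ ℝ ℝ)
  have e : fderiv ℝ para = B := by funext u; rw [fderiv_para]; rfl
  have e2 : fderiv ℝ (fderiv ℝ para) = fun _ => B := by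
    funext u; rw [e, B.fderiv]
  rw [e2, iteratedFDeriv_const_of_ne (by omega)]
  simp

/-- Coordinates bound for a height function. -/
lemma norm_iter_height {F : P2 → Fin 3 → ℝ} (hF : ∀ i, ContDiff ℝ ∞ fun v => F v i)
    {e : Fin 3 → ℝ} (he : ∀ i, |e i| ≤ 1) {M : ℝ} {k : ℕ}
    (hM : ∀ i, ‖iteratedFDeriv ℝ k (fun v => F v i) z‖ ≤ M) :
    ‖iteratedFDeriv ℝ k (height F e) z‖ ≤ 3 * M := by
  have h1 : ∀ i, ContDiffAt ℝ k (fun v => e i • F v i) z := fun i =>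
    (((hF i).const_smul (e i)).of_le (ik k)).contDiffAt
  have e' : height F e = fun v => ∑ i, e i • F v i := rfl
  rw [e', iteratedFDeriv_fun_sum_apply fun i _ => h1 i]
  refine (norm_sum_le _ _).trans ?_
  have : ∀ i, ‖iteratedFDeriv ℝ k (fun v => e i • F v i) z‖ ≤ M := fun i => by
    rw [iteratedFDeriv_const_smul_apply' (((hF i).of_le (ik k)).contDiffAt), norm_smul,
      Real.norm_eq_abs]
    exact (mul_le_of_le_one_left (norm_nonneg _) (he i)).trans (hM i)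
  refine (Finset.sum_le_sum fun i _ => this i).trans ?_
  simp

end Vale.Agent.P229.Final
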