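import Vale.Agent.P229.Final.Template

/-
P229: positions of the squares and of the island centres.
-/

namespace Vale.Agent.P229.Final

open Vale.Agent.P229

/-- Centre of the `n`-th square. -/
noncomputable def cn (n : ℕ) : P2 := ((1 / 2 : ℝ) ^ n, 0)

/-- Radius of the bump in the `n`-th square (half of the half side). -/
noncomputable def rs (n : ℕ) : ℝ := (1 / 2 : ℝ) ^ n / 40

/-- Half side of the `n`-th square. -/
noncomputable def side (n : ℕ) : ℝ := (1 / 2 : ℝ) ^ n / 20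

/-- Shrinking factors. -/
noncomputable def rho (δ : ℕ → ℝ) (m : ℕ) : ℝ := min (1 / 4) (δ m / ((m : ℝ) + 1) ^ 4)

/-- Offset of the `i`-th layer of islands at the `n`-th square. -/
noncomputable def off (δ : ℕ → ℝ) (n i : ℕ) : ℝ :=
  side n * ∏ l ∈ Finset.range (i + 1), rho δ (n + l + 1)

/-- Number of islands on each side. -/
noncomputable def num (δ : ℕ → ℝ) (n i : ℕ) : ℕ := ⌈8 * side n / off δ n i⌉₊ + 1

/-- Radius parameter of the islands of a layer. -/
noncomputable def irad (δ : ℕ → ℝ) (n i : ℕ) : ℝ :=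
  min (off δ n i) (side n / num δ n i) / 64

/-- Parameter on a side. -/
noncomputable def tpos (δ : ℕ → ℝ) (n i : ℕ) (k : Fin (num δ n i)) : ℝ :=
  (side n + off δ n i) * (-1 + 2 * (k : ℝ) / num δ n i)

/-- Rotation of a boundary point by quarter turns. -/
def turn : Fin 4 → ℝ → ℝ → P2
  | 0, A, t => (A, t)
  | 1, A, t => (-t, A)
  | 2, A, t => (-A, -t)
  | 3, A, t => (t, -A)

/-- Island centres. -/
noncomputable def ctr (δ : ℕ → ℝ) (n i : ℕ) (sd : Fin 4) (k : Fin (num δ n i)) : P2 :=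
  cn n + turn sd (side n + off δ n i) (tpos δ n i k)

variable {δ : ℕ → ℝ}

lemma side_pos (n : ℕ) : 0 < side n := by unfold side; positivity

lemma rs_pos (n : ℕ) : 0 < rs n := by unfold rs; positivity

lemma side_eq (n : ℕ) : side n = 2 * rs n := by unfold side rs; ring

lemma side_le (n : ℕ) : side n ≤ 1 / 20 := by
  unfold side
  linarith [pow_le_one₀ (n := n) (by norm_num : (0:ℝ) ≤ 1/2) (by norm_num)]

lemma rho_pos (hδ : ∀ m, 0 < δ m) (m : ℕ) : 0 < rho δ m :=
  lt_min (by norm_num) (div_pos (hδ m) (by positivity))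

lemma off_pos (hδ : ∀ m, 0 < δ m) (n i : ℕ) : 0 < off δ n i :=
  mul_pos (side_pos n) (Finset.prod_pos fun _ _ => rho_pos hδ _)

lemma off_succ (hδ : ∀ m, 0 < δ m) (n i : ℕ) : off δ n (i + 1) ≤ off δ n i / 4 := by
  have h := off_pos hδ n i
  have e : off δ n (i + 1) = off δ n i * rho δ (n + (i + 1) + 1) := by
    simp [off, Finset.prod_range_succ _ (i + 1), mul_assoc]
  rw [e]
  nlinarith [min_le_left (1 / 4 : ℝ) (δ (n + (i + 1) + 1) / ((((n + (i + 1) + 1 : ℕ)) : ℝ) + 1) ^ 4),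
    show rho δ (n + (i + 1) + 1) ≤ 1 / 4 from min_le_left _ _]

lemma off_lt (hδ : ∀ m, 0 < δ m) (n : ℕ) {i j : ℕ} (h : i < j) :
    off δ n j ≤ off δ n i / 4 := by
  induction j with
  | zero => omega
  | succ j ih =>
    rcases Nat.lt_succ_iff_lt_or_eq.1 h with hh | hh
    · linarith [ih hh, off_succ hδ n j, off_pos hδ n i, off_pos hδ n j]
    · subst hh; exact off_succ hδ n i

lemma off_le_rho (hδ : ∀ m, 0 < δ m) (n i : ℕ) :
    off δ n i ≤ side n * rho δ (n + i + 1) := by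
  refine mul_le_mul_of_nonneg_left ?_ (side_pos n).le
  rw [Finset.prod_range_succ]
  refine mul_le_of_le_one_left (rho_pos hδ _).le ?_
  exact Finset.prod_le_one (fun _ _ => (rho_pos hδ _).le)
    (fun _ _ => le_trans (min_le_left _ _) (by norm_num))

lemma off_le_quarter (hδ : ∀ m, 0 < δ m) (n i : ℕ) : off δ n i ≤ side n / 4 := by
  have := off_le_rho hδ n i
  nlinarith [side_pos n, show rho δ (n + i + 1) ≤ 1 / 4 from min_le_left _ _]

lemma num_pos (n i : ℕ) : (0 : ℝ) < num δ n i := by unfold num; positivity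

lemma num_ge (hδ : ∀ m, 0 < δ m) (n i : ℕ) : 8 * side n ≤ off δ n i * num δ n i := by
  have h := off_pos hδ n i
  have : 8 * side n / off δ n i ≤ (num δ n i : ℝ) := by
    unfold num; push_cast; linarith [Nat.le_ceil (8 * side n / off δ n i)]
  rw [div_le_iff₀ h] at this
  linarith

lemma irad_pos (hδ : ∀ m, 0 < δ m) (n i : ℕ) : 0 < irad δ n i :=
  div_pos (lt_min (off_pos hδ n i) (div_pos (side_pos n) (num_pos n i))) (by norm_num)

lemma irad_le_off (n i : ℕ) : 64 * irad δ n i ≤ off δ n i := by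
  unfold irad; linarith [min_le_left (off δ n i) (side n / num δ n i)]

lemma irad_le_step (n i : ℕ) : 64 * irad δ n i ≤ side n / num δ n i := by
  unfold irad; linarith [min_le_right (off δ n i) (side n / num δ n i)]

lemma norm_turn (sd : Fin 4) {A t : ℝ} (hA : 0 ≤ A) (ht : |t| ≤ A) : ‖turn sd A t‖ = A := by
  fin_cases sd <;>
    simp only [turn, Prod.norm_def, Real.norm_eq_abs, abs_neg, abs_of_nonneg hA] <;>
    first | exact max_eq_left ht | exact max_eq_right ht

lemma abs_tpos (hδ : ∀ m, 0 < δ m) (n i : ℕ) (k : Fin (num δ n i)) :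
    |tpos δ n i k| ≤ side n + off δ n i := by
  have hA : 0 < side n + off δ n i := add_pos (side_pos n) (off_pos hδ n i)
  have hk : (k : ℝ) ≤ num δ n i := by exact_mod_cast k.2.le
  have h2 : 0 ≤ 2 * (k : ℝ) / num δ n i := by positivity
  have h3 : 2 * (k : ℝ) / num δ n i ≤ 2 := by rw [div_le_iff₀ (num_pos n i)]; linarith
  rw [tpos, abs_mul, abs_of_pos hA]
  exact mul_le_of_le_one_right hA.le (abs_le.2 ⟨by linarith, by linarith⟩)

lemma norm_ctr (hδ : ∀ m, 0 < δ m) (n i : ℕ) (sd : Fin 4) (k : Fin (num δ n i)) :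
    ‖ctr δ n i sd k - cn n‖ = side n + off δ n i := by
  rw [ctr, add_sub_cancel_left]
  exact norm_turn sd (add_pos (side_pos n) (off_pos hδ n i)).le (abs_tpos hδ n i k)

lemma cn_sep {n m : ℕ} (h : n ≠ m) : 5 * (side n + side m) ≤ ‖cn n - cn m‖ := by
  wlog hnm : n < m generalizing n m
  · have := this (Ne.symm h) (by omega)
    rw [norm_sub_rev]; linarith
  have hm : (1 / 2 : ℝ) ^ m ≤ (1 / 2) ^ (n + 1) :=
    pow_le_pow_of_le_one (by norm_num) (by norm_num) hnm
  have hp : (0 : ℝ) < (1 / 2) ^ n := by positivity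
  rw [pow_succ] at hm
  have e : ‖cn n - cn m‖ = |(1 / 2 : ℝ) ^ n - (1 / 2) ^ m| := by
    simp [cn, Prod.norm_def]
  rw [e, abs_of_nonneg (by linarith)]
  unfold side
  nlinarith

lemma turn_sep {A t t' : ℝ} {sd sd' : Fin 4} {g : ℝ} (hne : sd ≠ sd') (ht : |t| ≤ A)
    (ht' : |t'| ≤ A) (h1 : t ≤ A - g) (h2 : t' ≤ A - g) (hgA : g ≤ 2 * A) :
    g ≤ ‖turn sd A t - turn sd' A t'‖ := by
  obtain ⟨a1, a2⟩ := abs_le.1 ht
  obtain ⟨b1, b2⟩ := abs_le.1 ht'
  have H : ∀ (u v : P2), (g ≤ |u.1 - v.1| ∨ g ≤ |u.2 - v.2|) → g ≤ ‖u - v‖ := fun u v h => by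
    rcases h with h | h
    · exact h.trans (norm_fst_le (u - v))
    · exact h.trans (norm_snd_le (u - v))
  apply H
  fin_cases sd <;> fin_cases sd' <;> simp only [turn] <;>
    first
      | exact absurd rfl hne
      | (left; rw [le_abs]; left; linarith)
      | (left; rw [le_abs]; right; linarith)
      | (right; rw [le_abs]; left; linarith)
      | (right; rw [le_abs]; right; linarith)

lemma turn_same (sd : Fin 4) (A t t' : ℝ) : |t - t'| ≤ ‖turn sd A t - turn sd A t'‖ := by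
  fin_cases sd <;> simp [turn, Prod.norm_def]
  all_goals rw [neg_add_eq_sub, abs_sub_comm]

lemma ctr_sep (hδ : ∀ m, 0 < δ m) (n i : ℕ) {p q : Fin 4 × Fin (num δ n i)} (hpq : p ≠ q) :
    2 * side n / num δ n i ≤ ‖ctr δ n i p.1 p.2 - ctr δ n i q.1 q.2‖ := by
  have hK := num_pos (δ := δ) n i
  have hd := off_pos hδ n i
  have hs := side_pos n
  have hA : 0 < side n + off δ n i := by linarith
  have hg0 : 2 * side n / num δ n i ≤ 2 * (side n + off δ n i) / num δ n i :=
    div_le_div_of_nonneg_right (by linarith) hK.le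
  refine hg0.trans ?_
  rw [ctr, ctr, add_sub_add_left_eq_sub]
  have key : ∀ k : Fin (num δ n i), tpos δ n i k
      ≤ (side n + off δ n i) - 2 * (side n + off δ n i) / num δ n i := by
    intro k
    have hk : (k : ℝ) + 1 ≤ num δ n i := by exact_mod_cast k.2
    have e : (side n + off δ n i) - 2 * (side n + off δ n i) / num δ n i - tpos δ n i k
        = 2 * (side n + off δ n i) * ((num δ n i - 1 - (k:ℝ)) / num δ n i) := by
      unfold tpos; field_simp; ring
    have : 0 ≤ 2 * (side n + off δ n i) * ((num δ n i - 1 - (k:ℝ)) / num δ n i) :=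
      mul_nonneg (by linarith) (div_nonneg (by linarith) hK.le)
    linarith
  by_cases hs' : p.1 = q.1
  · rw [hs']
    refine le_trans ?_ (turn_same _ _ _ _)
    have hk : p.2 ≠ q.2 := fun h => hpq (Prod.ext hs' h)
    have h1 : (1 : ℝ) ≤ |(p.2 : ℝ) - (q.2 : ℝ)| := by
      rcases lt_or_gt_of_ne (Fin.val_ne_of_ne hk) with h | h
      · have : (p.2 : ℝ) + 1 ≤ (q.2 : ℝ) := by exact_mod_cast h
        rw [abs_sub_comm, abs_of_nonneg (by linarith)]; linarith
      · have : (q.2 : ℝ) + 1 ≤ (p.2 : ℝ) := by exact_mod_cast h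
        rw [abs_of_nonneg (by linarith)]; linarith
    have e : tpos δ n i p.2 - tpos δ n i q.2
        = 2 * (side n + off δ n i) / num δ n i * ((p.2 : ℝ) - (q.2 : ℝ)) := by
      unfold tpos; field_simp; ring
    rw [e, abs_mul, abs_of_pos (by positivity)]
    exact le_mul_of_one_le_right (by positivity) h1
  · refine turn_sep hs' (abs_tpos hδ n i _) (abs_tpos hδ n i _) (key _) (key _) ?_
    rw [div_le_iff₀ hK]
    have : (1 : ℝ) ≤ num δ n i := by unfold num; push_cast; linarith [show (0:ℝ) ≤ (⌈8 * side n / off δ n i⌉₊ : ℝ) from Nat.cast_nonneg _]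
    nlinarith

lemma exists_near (hδ : ∀ m, 0 < δ m) (n i : ℕ) {q : P2} (hq : ‖q - cn n‖ = side n) :
    ∃ (sd : Fin 4) (k : Fin (num δ n i)), ‖ctr δ n i sd k - q‖ ≤ 2 * off δ n i := by
  have hd := off_pos hδ n i
  have hs := side_pos n
  have hK := num_pos (δ := δ) n i
  set u := q - cn n with hu
  have hu1 : |u.1| ≤ side n := hq ▸ norm_fst_le u
  have hu2 : |u.2| ≤ side n := hq ▸ norm_snd_le u
  obtain ⟨sd, t, ht, he⟩ : ∃ (sd : Fin 4) (t : ℝ), |t| ≤ side n ∧ u = turn sd (side n) t := by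
    rw [Prod.norm_def, Real.norm_eq_abs, Real.norm_eq_abs] at hq
    rcases max_choice |u.1| |u.2| with h | h <;> rw [h] at hq <;>
      rcases abs_eq hs.le |>.1 hq with e | e
    · exact ⟨0, u.2, hu2, Prod.ext e rfl⟩
    · exact ⟨2, -u.2, by rwa [abs_neg], Prod.ext e (by simp [turn])⟩
    · exact ⟨1, -u.1, by rwa [abs_neg], Prod.ext (by simp [turn]) e⟩
    · exact ⟨3, u.1, hu1, Prod.ext rfl e⟩
  set A := side n + off δ n i with hA
  have hA0 : 0 < A := by linarith
  obtain ⟨t1, t2⟩ := abs_le.1 ht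
  have hx : 0 ≤ (t + A) * num δ n i / (2 * A) :=
    div_nonneg (mul_nonneg (by linarith) hK.le) (by linarith)
  have hlt : ⌊(t + A) * num δ n i / (2 * A)⌋₊ < num δ n i := by
    rw [Nat.floor_lt hx, div_lt_iff₀ (by linarith)]
    nlinarith
  refine ⟨sd, ⟨_, hlt⟩, ?_⟩
  have f1 := Nat.floor_le hx
  have f2 := Nat.lt_floor_add_one ((t + A) * num δ n i / (2 * A))
  have hstep : 2 * A / num δ n i ≤ off δ n i := by
    rw [div_le_iff₀ hK]
    nlinarith [num_ge hδ n i, off_le_quarter hδ n i]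
  have hdt : |tpos δ n i ⟨_, hlt⟩ - t| ≤ 2 * A / num δ n i := by
    have e : tpos δ n i ⟨_, hlt⟩ - t
        = 2 * A / num δ n i * ((⌊(t + A) * num δ n i / (2 * A)⌋₊ : ℝ)
          - (t + A) * num δ n i / (2 * A)) := by
      unfold tpos; rw [← hA]; field_simp; ring
    rw [e, abs_mul, abs_of_pos (by positivity : (0:ℝ) < 2 * A / num δ n i)]
    refine mul_le_of_le_one_right (by positivity) (abs_le.2 ⟨by linarith, by linarith⟩)
  have e2 : ctr δ n i sd ⟨_, hlt⟩ - q = turn sd A (tpos δ n i ⟨_, hlt⟩) - turn sd (side n) t := by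
    rw [← he, hu, ctr, ← hA]; abel
  rw [e2, Prod.norm_def, Real.norm_eq_abs, Real.norm_eq_abs]
  have hA' : |A - side n| ≤ 2 * off δ n i := by
    rw [hA, add_sub_cancel_left, abs_of_pos hd]; linarith
  have ht' : |tpos δ n i ⟨_, hlt⟩ - t| ≤ 2 * off δ n i := by linarith
  rw [abs_le] at hA' ht'
  fin_cases sd <;> simp only [turn, Prod.fst_sub, Prod.snd_sub] <;>
    exact max_le (abs_le.2 ⟨by linarith, by linarith⟩) (abs_le.2 ⟨by linarith, by linarith⟩)

end Vale.Agent.P229.Final
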