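import Vale.Agent.P229.Final.Rescale

/-
P229: transformation of the covariant Hessian and of the curvature term under a similarity.
-/

namespace Vale.Agent.P229.Final

open Vale.Agent.P229
open scoped ContDiff

variable {c : P2} {r cs sn : ℝ} {g : P2 → ℝ} {X : P2}

lemma diff_of_smooth {f : P2 → ℝ} (hf : ContDiff ℝ ∞ f) (z : P2) : DifferentiableAt ℝ f z :=
  (hf.differentiable (by simp)) z

lemma dp_lin {u v : P2 → ℝ} (hu : DifferentiableAt ℝ u X) (hv : DifferentiableAt ℝ v X) (a b : ℝ) :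
    dp (fun w => a * u w + b * v w) X = a * dp u X + b * dp v X := by
  unfold dp
  rw [fderiv_fun_add (hu.const_mul a) (hv.const_mul b), fderiv_const_mul hu, fderiv_const_mul hv]
  simp

lemma dy_lin {u v : P2 → ℝ} (hu : DifferentiableAt ℝ u X) (hv : DifferentiableAt ℝ v X) (a b : ℝ) :
    dy (fun w => a * u w + b * v w) X = a * dy u X + b * dy v X := by
  unfold dy
  rw [fderiv_fun_add (hu.const_mul a) (hv.const_mul b), fderiv_const_mul hu, fderiv_const_mul hv]
  simp

lemma smooth_simil (hg : ContDiff ℝ ∞ g) (c : P2) (r cs sn : ℝ) :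
    ContDiff ℝ ∞ (fun v => g (simil c r cs sn v)) := hg.comp (contDiff_simil c r cs sn)

/-- All second derivatives of a composition with a similarity. -/
lemma second_simil (hg : ContDiff ℝ ∞ g) (X : P2) :
    let z := simil c r cs sn X
    dp (dp fun v => g (simil c r cs sn v)) X = r ^ 2 * (cs ^ 2 * dp (dp g) z
        + 2 * cs * sn * dy (dp g) z + sn ^ 2 * dy (dy g) z) ∧
    dy (dp fun v => g (simil c r cs sn v)) X = r ^ 2 * (-(cs * sn) * dp (dp g) z
        + (cs ^ 2 - sn ^ 2) * dy (dp g) z + cs * sn * dy (dy g) z) ∧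
    dy (dy fun v => g (simil c r cs sn v)) X = r ^ 2 * (sn ^ 2 * dp (dp g) z
        - 2 * cs * sn * dy (dp g) z + cs ^ 2 * dy (dy g) z) := by
  intro z
  have e1 : (dp fun v => g (simil c r cs sn v))
      = fun v => r * cs * dp g (simil c r cs sn v) + r * sn * dy g (simil c r cs sn v) :=
    funext fun v => dp_simil (diff_of_smooth hg _)
  have e2 : (dy fun v => g (simil c r cs sn v))
      = fun v => -(r * sn) * dp g (simil c r cs sn v) + r * cs * dy g (simil c r cs sn v) :=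
    funext fun v => by rw [dy_simil (diff_of_smooth hg _)]; ring
  have ha := diff_of_smooth (smooth_simil (smooth_dp hg) c r cs sn) X
  have hb := diff_of_smooth (smooth_simil (smooth_dy hg) c r cs sn) X
  have hs : dp (dy g) z = dy (dp g) z :=
    (dy_dp_eq (hg.of_le (WithTop.coe_le_coe.2 le_top)) z).symm
  refine ⟨?_, ?_, ?_⟩
  · rw [e1, dp_lin ha hb, dp_simil (diff_of_smooth (smooth_dp hg) _),
      dp_simil (diff_of_smooth (smooth_dy hg) _), hs]
    ring
  · rw [e1, dy_lin ha hb, dy_simil (diff_of_smooth (smooth_dp hg) _),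
      dy_simil (diff_of_smooth (smooth_dy hg) _), hs]
    ring
  · rw [e2, dy_lin ha hb, dy_simil (diff_of_smooth (smooth_dp hg) _),
      dy_simil (diff_of_smooth (smooth_dy hg) _), hs]
    ring

/-- The rescaled height. -/
noncomputable def scaled (g : P2 → ℝ) (c : P2) (r cs sn σ : ℝ) (X : P2) : ℝ :=
  (σ * r ^ 2)⁻¹ * g (simil c r cs sn X) - (σ * r ^ 2)⁻¹ * g c

lemma smooth_scaled (hg : ContDiff ℝ ∞ g) (σ : ℝ) : ContDiff ℝ ∞ (scaled g c r cs sn σ) :=
  (contDiff_const.mul (smooth_simil hg c r cs sn)).sub contDiff_const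

lemma dp_scaled (hg : ContDiff ℝ ∞ g) (σ : ℝ) :
    dp (scaled g c r cs sn σ)
      = fun X => (σ * r ^ 2)⁻¹ * dp (fun v => g (simil c r cs sn v)) X := by
  funext X
  unfold scaled dp
  rw [fderiv_sub_const, fderiv_const_mul (diff_of_smooth (smooth_simil hg c r cs sn) X)]
  simp

lemma dy_scaled (hg : ContDiff ℝ ∞ g) (σ : ℝ) :
    dy (scaled g c r cs sn σ)
      = fun X => (σ * r ^ 2)⁻¹ * dy (fun v => g (simil c r cs sn v)) X := by
  funext X
  unfold scaled dy
  rw [fderiv_sub_const, fderiv_const_mul (diff_of_smooth (smooth_simil hg c r cs sn) X)]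
  simp

variable {E : P2 → ℝ} {σ : ℝ}

/-- The Darboux equation is covariant under similarities. -/
theorem darboux_simil (hg : ContDiff ℝ ∞ g) (hE : ContDiff ℝ ∞ E) (hr : r ≠ 0) (hσ : σ ≠ 0)
    (hcs : cs ^ 2 + sn ^ 2 = 1) (X : P2) (hz : E (simil c r cs sn X) ≠ 0)
    (heq : hess11 E g (simil c r cs sn X) * hess22 E g (simil c r cs sn X)
      - hess12 E g (simil c r cs sn X) ^ 2 = curvTerm E (simil c r cs sn X)
        * (1 - (dp g (simil c r cs sn X) ^ 2 + dy g (simil c r cs sn X) ^ 2)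
          / E (simil c r cs sn X))) :
    hess11 (fun v => E (simil c r cs sn v)) (scaled g c r cs sn σ) X
        * hess22 (fun v => E (simil c r cs sn v)) (scaled g c r cs sn σ) X
      - hess12 (fun v => E (simil c r cs sn v)) (scaled g c r cs sn σ) X ^ 2
      = curvTerm (fun v => E (simil c r cs sn v)) X / (σ * r) ^ 2
        * (1 - (σ * r) ^ 2 * (dp (scaled g c r cs sn σ) X ^ 2 + dy (scaled g c r cs sn σ) X ^ 2)
          / E (simil c r cs sn X)) := by
  obtain ⟨g1, g2, g3⟩ := second_simil (c := c) (r := r) (cs := cs) (sn := sn) hg X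
  obtain ⟨E1, -, E3⟩ := second_simil (c := c) (r := r) (cs := cs) (sn := sn) hE X
  have dgs := diff_of_smooth (smooth_dp (smooth_simil hg c r cs sn)) X
  have dys := diff_of_smooth (smooth_dy (smooth_simil hg c r cs sn)) X
  have p1 : dp (dp (scaled g c r cs sn σ)) X
      = (σ * r ^ 2)⁻¹ * dp (dp fun v => g (simil c r cs sn v)) X := by
    rw [dp_scaled hg]; unfold dp; rw [fderiv_const_mul]
    · simp
    · exact dgs
  have p2 : dy (dp (scaled g c r cs sn σ)) X
      = (σ * r ^ 2)⁻¹ * dy (dp fun v => g (simil c r cs sn v)) X := by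
    rw [dp_scaled hg]; unfold dy; rw [fderiv_const_mul]
    · simp
    · exact dgs
  have p3 : dy (dy (scaled g c r cs sn σ)) X
      = (σ * r ^ 2)⁻¹ * dy (dy fun v => g (simil c r cs sn v)) X := by
    rw [dy_scaled hg]; unfold dy; rw [fderiv_const_mul]
    · simp
    · exact dys
  have q1 : dp (scaled g c r cs sn σ) X = _ := congrFun (dp_scaled hg σ) X
  have q2 : dy (scaled g c r cs sn σ) X = _ := congrFun (dy_scaled hg σ) X
  simp only [hess11, hess22, hess12, curvTerm] at heq ⊢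
  simp only [p1, p2, p3, q1, q2, g1, g2, g3, E1, E3,
    dp_simil (diff_of_smooth hg _), dy_simil (diff_of_smooth hg _),
    dp_simil (diff_of_smooth hE _), dy_simil (diff_of_smooth hE _)]
  generalize dp (dp g) (simil c r cs sn X) = a at heq ⊢
  generalize dy (dp g) (simil c r cs sn X) = b at heq ⊢
  generalize dy (dy g) (simil c r cs sn X) = d at heq ⊢
  generalize dp g (simil c r cs sn X) = u at heq ⊢
  generalize dy g (simil c r cs sn X) = v at heq ⊢
  generalize dp (dp E) (simil c r cs sn X) = ea at heq ⊢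
  generalize dy (dp E) (simil c r cs sn X) = eb at heq ⊢
  generalize dy (dy E) (simil c r cs sn X) = ed at heq ⊢
  generalize dp E (simil c r cs sn X) = eu at heq ⊢
  generalize dy E (simil c r cs sn X) = ev at heq ⊢
  generalize E (simil c r cs sn X) = e at heq hz ⊢
  set A11 := a - (eu * u - ev * v) / (2 * e) with hA11
  set A22 := d - (-(eu * u) + ev * v) / (2 * e) with hA22
  set A12 := b - (ev * u + eu * v) / (2 * e) with hA12
  have h11 : (σ * r ^ 2)⁻¹ * (r ^ 2 * (cs ^ 2 * a + 2 * cs * sn * b + sn ^ 2 * d))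
      - ((r * cs * eu + r * sn * ev) * ((σ * r ^ 2)⁻¹ * (r * cs * u + r * sn * v))
        - (-(r * sn * eu) + r * cs * ev) * ((σ * r ^ 2)⁻¹ * (-(r * sn * u) + r * cs * v))) / (2 * e)
      = (cs ^ 2 * A11 + 2 * cs * sn * A12 + sn ^ 2 * A22) / σ := by
    rw [hA11, hA22, hA12]; field_simp; ring
  have h22 : (σ * r ^ 2)⁻¹ * (r ^ 2 * (sn ^ 2 * a - 2 * cs * sn * b + cs ^ 2 * d))
      - (-((r * cs * eu + r * sn * ev) * ((σ * r ^ 2)⁻¹ * (r * cs * u + r * sn * v)))
        + (-(r * sn * eu) + r * cs * ev) * ((σ * r ^ 2)⁻¹ * (-(r * sn * u) + r * cs * v))) / (2 * e)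
      = (sn ^ 2 * A11 - 2 * cs * sn * A12 + cs ^ 2 * A22) / σ := by
    rw [hA11, hA22, hA12]; field_simp; ring
  have h12 : (σ * r ^ 2)⁻¹ * (r ^ 2 * (-(cs * sn) * a + (cs ^ 2 - sn ^ 2) * b + cs * sn * d))
      - ((-(r * sn * eu) + r * cs * ev) * ((σ * r ^ 2)⁻¹ * (r * cs * u + r * sn * v))
        + (r * cs * eu + r * sn * ev) * ((σ * r ^ 2)⁻¹ * (-(r * sn * u) + r * cs * v))) / (2 * e)
      = (-(cs * sn) * A11 + (cs ^ 2 - sn ^ 2) * A12 + cs * sn * A22) / σ := by
    rw [hA11, hA22, hA12]; field_simp; ring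
  rw [h11, h22, h12]
  have hd : (cs ^ 2 * A11 + 2 * cs * sn * A12 + sn ^ 2 * A22) / σ
      * ((sn ^ 2 * A11 - 2 * cs * sn * A12 + cs ^ 2 * A22) / σ)
      - ((-(cs * sn) * A11 + (cs ^ 2 - sn ^ 2) * A12 + cs * sn * A22) / σ) ^ 2
      = (cs ^ 2 + sn ^ 2) ^ 2 * (A11 * A22 - A12 ^ 2) / σ ^ 2 := by field_simp; ring
  rw [hd, hcs, heq]
  have k1 : ∀ s t : ℝ, (r * cs * s + r * sn * t) ^ 2 + (-(r * sn * s) + r * cs * t) ^ 2
      = r ^ 2 * (s ^ 2 + t ^ 2) := fun s t => by
    linear_combination r ^ 2 * (s ^ 2 + t ^ 2) * hcs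
  have k2 : r ^ 2 * (cs ^ 2 * ea + 2 * cs * sn * eb + sn ^ 2 * ed)
      + r ^ 2 * (sn ^ 2 * ea - 2 * cs * sn * eb + cs ^ 2 * ed) = r ^ 2 * (ea + ed) := by
    linear_combination r ^ 2 * (ea + ed) * hcs
  have k3 : ((σ * r ^ 2)⁻¹ * (r * cs * u + r * sn * v)) ^ 2
      + ((σ * r ^ 2)⁻¹ * (-(r * sn * u) + r * cs * v)) ^ 2
      = ((σ * r ^ 2)⁻¹) ^ 2 * (r ^ 2 * (u ^ 2 + v ^ 2)) := by rw [← k1 u v]; ring
  rw [k1 eu ev, k2, k3]
  field_simp

/-- Local equality of metrics preserves the equation data. -/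
lemma congr_data {E E' Z : P2 → ℝ} (h : E' =ᶠ[nhds X] E) :
    hess11 E' Z X = hess11 E Z X ∧ hess22 E' Z X = hess22 E Z X ∧
      hess12 E' Z X = hess12 E Z X ∧ curvTerm E' X = curvTerm E X := by
  have e0 : E' X = E X := h.eq_of_nhds
  have e1 : ∀ᶠ v in nhds X, dp E' v = dp E v ∧ dy E' v = dy E v := by
    filter_upwards [h.eventuallyEq_nhds] with v hv
    exact ⟨by unfold dp; rw [hv.fderiv_eq], by unfold dy; rw [hv.fderiv_eq]⟩
  have p : dp E' =ᶠ[nhds X] dp E := e1.mono fun v hv => hv.1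
  have q : dy E' =ᶠ[nhds X] dy E := e1.mono fun v hv => hv.2
  have a : dp (dp E') X = dp (dp E) X := by
    show fderiv ℝ (dp E') X (1, 0) = _; rw [p.fderiv_eq]; rfl
  have b : dy (dy E') X = dy (dy E) X := by
    show fderiv ℝ (dy E') X (0, 1) = _; rw [q.fderiv_eq]; rfl
  simp only [hess11, hess22, hess12, curvTerm, e0, p.eq_of_nhds, q.eq_of_nhds, a, b, and_self]

end Vale.Agent.P229.Final
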