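import Vale.Agent.P229.Final.Metric
import Vale.Agent.P229.Final.Bounds

/-
P229: assembly of the counterexample.
-/

namespace Vale.Agent.P229.Final

open Vale.Agent.P229
open scoped ContDiff

lemma norm_sub_le_iff (z c : P2) (a : ℝ) : ‖z - c‖ ≤ a ↔ |z.1 - c.1| ≤ a ∧ |z.2 - c.2| ≤ a := by
  rw [Prod.norm_def, max_le_iff]; simp

lemma sqb_eq (c : P2) (r η : ℝ) (z : P2) :
    1 + sqb c r η z = 1 - η * blob ((z.1 - c.1) / r, (z.2 - c.2) / r) := by unfold sqb; ring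

lemma abs_le_one_of_unit {v : Fin 3 → ℝ} (h : ∑ i, v i * v i = 1) (i : Fin 3) : |v i| ≤ 1 := by
  refine abs_le.2 ⟨?_, ?_⟩ <;>
    nlinarith [Finset.single_le_sum (f := fun i => v i * v i) (fun i _ => mul_self_nonneg (v i))
      (Finset.mem_univ i)]

/-- A globally smooth immersion agreeing with the given one near the origin. -/
lemma exists_global {E : P2 → ℝ} {U : Set P2} {F : P2 → Fin 3 → ℝ} (hU : IsOpen U)
    (h0 : (0, 0) ∈ U) (hF : IsIso E U F) :
    ∃ (ρ : ℝ) (G : P2 → Fin 3 → ℝ), 0 < ρ ∧ ContDiff ℝ ∞ G ∧ IsIso E (Metric.ball 0 ρ) G := by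
  obtain ⟨ρ, hρ, hsub⟩ := Metric.isOpen_iff.1 hU 0 h0
  let χ : ContDiffBump (0 : P2) := ⟨ρ / 4, ρ / 2, by linarith, by linarith⟩
  refine ⟨ρ / 4, fun v => χ v • F v, by linarith, ?_, ?_, ?_⟩
  · refine contDiff_iff_contDiffAt.2 fun v => ?_
    by_cases hv : v ∈ Metric.ball (0 : P2) ρ
    · exact (χ.contDiff.contDiffAt).smul (hF.1.contDiffAt (hU.mem_nhds (hsub hv)))
    · have hlt : v ∈ {u : P2 | ρ / 2 < ‖u‖} := by
        rw [mem_ball_zero_iff, not_lt] at hv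
        show ρ / 2 < ‖v‖
        linarith
      have : (fun u => χ u • F u) =ᶠ[nhds v] fun _ => 0 := by
        filter_upwards [(isOpen_lt continuous_const continuous_norm).mem_nhds hlt] with u hu
        rw [χ.zero_of_le_dist (by rw [dist_zero_right]; exact hu.le), zero_smul]
      exact contDiffAt_const.congr_of_eventuallyEq this
  all_goals
    have heq : ∀ v ∈ Metric.ball (0 : P2) (ρ / 4), χ v • F v = F v := fun v hv => by
      rw [χ.one_of_mem_closedBall (Metric.ball_subset_closedBall hv), one_smul]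
    have hb : Metric.ball (0 : P2) (ρ / 4) ⊆ U :=
      (Metric.ball_subset_ball (by linarith)).trans hsub
  · exact (hF.1.mono hb).congr heq
  · intro z hz
    have : fderiv ℝ (fun v => χ v • F v) z = fderiv ℝ F z :=
      Filter.EventuallyEq.fderiv_eq
        (Filter.eventually_of_mem (Metric.isOpen_ball.mem_nhds hz) heq)
    rw [this]
    exact hF.2 z (hb hz)

lemma segment_const {N : P2 → Fin 3 → ℝ} {u v : P2}
    (hd : ∀ t ∈ Set.Icc (0 : ℝ) 1, DifferentiableAt ℝ N (u + t • (v - u)))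
    (h0 : ∀ t ∈ Set.Icc (0 : ℝ) 1, fderiv ℝ N (u + t • (v - u)) = 0) : N v = N u := by
  have hp : ∀ t ∈ Set.Icc (0 : ℝ) 1, HasDerivAt (fun t : ℝ => N (u + t • (v - u))) 0 t := by
    intro t ht
    have hl : HasDerivAt (fun t : ℝ => u + t • (v - u)) (v - u) t := by
      simpa using ((hasDerivAt_id t).smul_const (v - u)).const_add u
    have := (hd t ht).hasFDerivAt.comp_hasDerivAt t hl
    rw [h0 t ht, _root_.zero_apply] at this
    exact this
  have := constant_of_has_deriv_right_zero (f := fun t : ℝ => N (u + t • (v - u)))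
    (fun t ht => (hp t ht).continuousAt.continuousWithinAt)
    (fun t ht => (hp t (Set.Ico_subset_Icc_self ht)).hasDerivWithinAt) 1
    (Set.right_mem_Icc.2 zero_le_one)
  simpa using this

/-- Constancy on the boundary of a square. -/
lemma boundary_const {N : P2 → Fin 3 → ℝ} {c : P2} {a : ℝ} (ha : 0 ≤ a)
    (hd : ∀ z, ‖z - c‖ = a → DifferentiableAt ℝ N z ∧ fderiv ℝ N z = 0) {z : P2}
    (hz : ‖z - c‖ = a) : N z = N (c.1 - a, c.2 - a) := by
  have seg : ∀ u v : P2, (∀ t ∈ Set.Icc (0 : ℝ) 1, ‖u + t • (v - u) - c‖ = a) → N v = N u :=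
    fun u v h => segment_const (fun t ht => (hd _ (h t ht)).1) (fun t ht => (hd _ (h t ht)).2)
  have vert : ∀ s : ℝ, |s| = a → ∀ y y' : ℝ, |y - c.2| ≤ a → |y' - c.2| ≤ a →
      N (c.1 + s, y) = N (c.1 + s, y') := by
    intro s hs y y' hy hy'
    refine seg (c.1 + s, y') (c.1 + s, y) fun t ht => ?_
    obtain ⟨p1, p2⟩ := abs_le.1 hy; obtain ⟨q1, q2⟩ := abs_le.1 hy'
    simp only [Prod.norm_def, Prod.fst_sub, Prod.snd_sub, Prod.fst_add, Prod.snd_add, Prod.smul_fst,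
      Prod.smul_snd, sub_self, mul_zero, add_zero, add_sub_cancel_left, Real.norm_eq_abs, smul_eq_mul]
    rw [hs]
    refine max_eq_left (abs_le.2 ⟨?_, ?_⟩) <;> nlinarith [ht.1, ht.2]
  have horz : ∀ s : ℝ, |s| = a → ∀ x x' : ℝ, |x - c.1| ≤ a → |x' - c.1| ≤ a →
      N (x, c.2 + s) = N (x', c.2 + s) := by
    intro s hs x x' hx hx'
    refine seg (x', c.2 + s) (x, c.2 + s) fun t ht => ?_
    obtain ⟨p1, p2⟩ := abs_le.1 hx; obtain ⟨q1, q2⟩ := abs_le.1 hx'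
    simp only [Prod.norm_def, Prod.fst_sub, Prod.snd_sub, Prod.fst_add, Prod.snd_add, Prod.smul_fst,
      Prod.smul_snd, sub_self, mul_zero, add_zero, add_sub_cancel_left, Real.norm_eq_abs, smul_eq_mul]
    rw [hs]
    refine max_eq_right (abs_le.2 ⟨?_, ?_⟩) <;> nlinarith [ht.1, ht.2]
  have hz' := (norm_sub_le_iff z c a).1 hz.le
  have ea : |(-a)| = a := by rw [abs_neg, abs_of_nonneg ha]
  have eb : |a| = a := abs_of_nonneg ha
  have low : ∀ x : ℝ, |x - c.1| ≤ a → N (x, c.2 - a) = N (c.1 - a, c.2 - a) := fun x hx => by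
    simpa [sub_eq_add_neg] using horz (-a) ea x (c.1 - a) hx (by simp [eb])
  have sides : ∀ s : ℝ, |s| = a → ∀ y : ℝ, |y - c.2| ≤ a →
      N (c.1 + s, y) = N (c.1 - a, c.2 - a) := fun s hs y hy => by
    rw [vert s hs y (c.2 - a) hy (by simp [eb])]
    exact low _ (by simp [hs])
  rw [Prod.norm_def, Real.norm_eq_abs, Real.norm_eq_abs] at hz
  rcases max_choice |(z - c).1| |(z - c).2| with h | h <;> rw [h] at hz
  · have := sides (z.1 - c.1) (by simpa using hz) z.2 hz'.2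
    simpa using this
  · have h1 := horz (z.2 - c.2) (by simpa using hz) z.1 (c.1 - a) hz'.1 (by simp [eb])
    have h2 := sides (-a) ea z.2 hz'.2
    simp only [add_sub_cancel] at h1
    rw [h1]
    simpa [sub_eq_add_neg] using h2

theorem exists_nonplanar {E : P2 → ℝ} {F : P2 → Fin 3 → ℝ} {N : P2 → Fin 3 → ℝ}
    {h11 h12 h22 : P2 → ℝ} {ρ M : ℝ} {K : Set P2} {n : ℕ} {r0 : ℝ}
    (hρ : 0 < ρ) (sE : ContDiff ℝ ∞ E) (smooth_h : ∀ e, ContDiff ℝ ∞ (height F e))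
    (sFi : ∀ i, ContDiff ℝ ∞ fun v => F v i) (sN : ContDiffOn ℝ ∞ N (Metric.ball 0 ρ))
    (hdata : ∀ z ∈ Metric.ball (0 : P2) ρ,
      (∑ i, N z i * N z i) = 1 ∧ h11 z * h22 z - h12 z ^ 2 = curvTerm E z ∧
      (h11 z = 0 → h12 z = 0 → h22 z = 0 → fderiv ℝ N z = 0) ∧
      (∀ e : Fin 3 → ℝ,
        hess11 E (height F e) z = h11 z * (∑ i, e i * N z i) ∧
        hess12 E (height F e) z = h12 z * (∑ i, e i * N z i) ∧
        hess22 E (height F e) z = h22 z * (∑ i, e i * N z i) ∧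
        (∑ i, e i * e i) * E z =
          (∑ i, e i * N z i) ^ 2 * E z + dp (height F e) z ^ 2 + dy (height F e) z ^ 2))
    (eqn : ∀ z ∈ Metric.ball (0 : P2) ρ, ∀ e : Fin 3 → ℝ, ∑ i, e i * e i = 1 →
      hess11 E (height F e) z * hess22 E (height F e) z - hess12 E (height F e) z ^ 2
        = curvTerm E z * (1 - (dp (height F e) z ^ 2 + dy (height F e) z ^ 2) / E z))
    (hMb : ∀ k ≤ 18, ∀ i, ∀ z ∈ K, ‖iteratedFDeriv ℝ k (fun v => F v i) z‖ ≤ M)
    (inK : ∀ z, ‖z - cn n‖ ≤ side n + ρ / 16 → z ∈ K)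
    (inB : ∀ z, ‖z - cn n‖ ≤ side n + ρ / 16 → z ∈ Metric.ball (0 : P2) ρ)
    (hn1 : rs n ≤ r0)
    (hsqc : ∀ (r η : ℝ) (c : P2) (E Z : P2 → ℝ) (V : Set P2),
      0 < r → r ≤ r0 → 0 < η → η ≤ r ^ 4 →
      IsOpen V → {z : P2 | |z.1 - c.1| ≤ 2 * r ∧ |z.2 - c.2| ≤ 2 * r} ⊆ V →
      ContDiff ℝ ∞ E → ContDiffOn ℝ ∞ Z V →
      (∀ z : P2, |z.1 - c.1| ≤ 2 * r → |z.2 - c.2| ≤ 2 * r →
        E z = 1 - η * blob ((z.1 - c.1) / r, (z.2 - c.2) / r) ∧
        |dp (dp Z) z| ≤ 3 * M ∧ |dy (dp Z) z| ≤ 3 * M ∧ |dy (dy Z) z| ≤ 3 * M ∧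
        hess11 E Z z * hess22 E Z z - hess12 E Z z ^ 2
          = curvTerm E z * (1 - (dp Z z ^ 2 + dy Z z ^ 2) / E z)) →
      (∀ z : P2, |z.1 - c.1| ≤ 2 * r → |z.2 - c.2| ≤ 2 * r →
        (|z.1 - c.1| = 2 * r ∨ |z.2 - c.2| = 2 * r) → dp Z z = 0 ∧ dy Z z = 0) →
      False)
    (hsquare : ∃ η : ℝ, 0 < η ∧ η ≤ rs n ^ 4 ∧
      ∀ z, ‖z - cn n‖ ≤ side n → E z = 1 + sqb (cn n) (rs n) η z) :
    ∃ q, ‖q - cn n‖ = side n ∧ ¬ (h11 q = 0 ∧ h12 q = 0 ∧ h22 q = 0) := by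
  by_contra hall
  push Not at hall
  set e := N ((cn n).1 - side n, (cn n).2 - side n) with hedef
  have hN : ∀ z, ‖z - cn n‖ = side n → N z = e := fun z hz => by
    refine boundary_const (side_pos n).le (fun v hv => ?_) hz
    have hvB := inB v (by linarith)
    obtain ⟨a1, a2, a3⟩ := hall v hv
    exact ⟨(sN.contDiffAt (Metric.isOpen_ball.mem_nhds hvB)).differentiableAt (by simp),
      (hdata v hvB).2.2.1 a1 a2 a3⟩
  have hcorner : ‖(((cn n).1 - side n, (cn n).2 - side n) : P2) - cn n‖ = side n := by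
    simp [Prod.norm_def, (side_pos n).le]
  have he : ∑ i, e i * e i = 1 := (hdata _ (inB _ (by linarith))).1
  obtain ⟨η, hη, hη4, hE⟩ := hsquare
  have h2 : 2 * rs n = side n := (side_eq n).symm
  refine hsqc (rs n) η (cn n) E (height F e) Set.univ (rs_pos n) hn1 hη hη4 isOpen_univ
    (Set.subset_univ _) sE (smooth_h e).contDiffOn (fun z z1 z2 => ?_) (fun z z1 z2 hbd => ?_)
  · rw [h2] at z1 z2
    have hz : ‖z - cn n‖ ≤ side n := (norm_sub_le_iff _ _ _).2 ⟨z1, z2⟩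
    have hzK := inK z (by linarith)
    have hD : ‖iteratedFDeriv ℝ 2 (height F e) z‖ ≤ 3 * M :=
      norm_iter_height sFi (abs_le_one_of_unit he) fun i => hMb 2 (by norm_num) i z hzK
    obtain ⟨b1, b2, b3⟩ := abs_second (smooth_h e) z
    exact ⟨(hE z hz).trans (sqb_eq _ _ _ _), b1.trans hD, b2.trans hD, b3.trans hD,
      eqn z (inB z (by linarith)) e he⟩
  · rw [h2] at z1 z2 hbd
    have hz : ‖z - cn n‖ = side n := by
      refine le_antisymm ((norm_sub_le_iff _ _ _).2 ⟨z1, z2⟩) ?_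
      rcases hbd with h | h
      · exact h ▸ norm_fst_le (z - cn n)
      · exact h ▸ norm_snd_le (z - cn n)
    obtain ⟨-, -, -, hh⟩ := hdata z (inB z (by linarith))
    obtain ⟨-, -, -, a4⟩ := hh e
    rw [hN z hz, he] at a4
    constructor <;>
      nlinarith [sq_nonneg (dp (height F e) z), sq_nonneg (dy (height F e) z)]

theorem exists_frame {a b d : ℝ} (hdet : a * d - b ^ 2 = 0) (hne : ¬ (a = 0 ∧ b = 0 ∧ d = 0)) :
    ∃ σ cs sn : ℝ, σ ≠ 0 ∧ cs ^ 2 + sn ^ 2 = 1 ∧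
      a = σ * cs ^ 2 ∧ b = σ * (cs * sn) ∧ d = σ * sn ^ 2 := by
  by_cases h : a = 0
  · have h12z : b = 0 := by
      have : b ^ 2 = 0 := by rw [h] at hdet; linarith
      exact pow_eq_zero_iff two_ne_zero |>.1 this
    exact ⟨d, 0, 1, fun h' => hne ⟨h, h12z, h'⟩, by norm_num, by simp [h], by simp [h12z],
      by simp⟩
  · have hT : 0 < a ^ 2 + b ^ 2 := by positivity
    set w := Real.sqrt (a ^ 2 + b ^ 2) with hw
    have hw2 : w ^ 2 = a ^ 2 + b ^ 2 := Real.sq_sqrt hT.le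
    have hw0 : 0 < w := Real.sqrt_pos.2 hT
    refine ⟨w ^ 2 / a, a / w, b / w, div_ne_zero (by positivity) h, ?_, ?_, ?_, ?_⟩
    · field_simp; linarith
    · field_simp
    · field_simp
    · field_simp
      linarith

lemma lin3 {a b d x y z : ℝ} (ha : |a| ≤ 2) (hb : |b| ≤ 2) (hd : |d| ≤ 2) :
    |a * x + b * y + d * z| ≤ 2 * (|x| + |y| + |z|) := by
  refine (abs_add_le _ _).trans ((add_le_add_left (abs_add_le _ _) _).trans ?_)
  rw [abs_mul, abs_mul, abs_mul]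
  nlinarith [abs_nonneg x, abs_nonneg y, abs_nonneg z]

lemma second_bound {cs sn x y z r D M CC l1 l2 l3 : ℝ} (hcs : cs ^ 2 + sn ^ 2 = 1) (hr : 0 ≤ r)
    (hM : 0 ≤ M) (hD : 0 ≤ D) (hl : 0 ≤ l1 + l2 + l3) (bx : |x| ≤ l1 * D) (by' : |y| ≤ l2 * D) (bz : |z| ≤ l3 * D)
    (hCC : CC = (2 : ℝ) ^ 20 * (3 * M) + 20 * (l1 + l2 + l3)) :
    |cs ^ 2 * x + 2 * cs * sn * y + sn ^ 2 * z|
        + 2 * |-(cs * sn) * x + (cs ^ 2 - sn ^ 2) * y + cs * sn * z|
        + |sn ^ 2 * x - 2 * cs * sn * y + cs ^ 2 * z| ≤ CC * (r + D) := by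
  have a1 : |cs ^ 2| ≤ 2 := abs_le.2 ⟨by nlinarith, by nlinarith⟩
  have a2 : |sn ^ 2| ≤ 2 := abs_le.2 ⟨by nlinarith, by nlinarith⟩
  have a3 : |cs * sn| ≤ 2 := abs_le.2
    ⟨by nlinarith [sq_nonneg (cs + sn)], by nlinarith [sq_nonneg (cs - sn)]⟩
  have a4 : |cs ^ 2 - sn ^ 2| ≤ 2 := abs_le.2 ⟨by nlinarith, by nlinarith⟩
  have a5 : |2 * cs * sn| ≤ 2 := abs_le.2
    ⟨by nlinarith [sq_nonneg (cs + sn)], by nlinarith [sq_nonneg (cs - sn)]⟩
  have e1 := lin3 (x := x) (y := y) (z := z) a1 a5 a2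
  have e2 := lin3 (x := x) (y := y) (z := z) (a := -(cs * sn)) (by rwa [abs_neg]) a4 a3
  have e3 := lin3 (x := x) (y := y) (z := z) (b := -(2 * cs * sn)) a2 (by rwa [abs_neg]) a1
  rw [neg_mul, ← sub_eq_add_neg] at e3
  have hX : 8 * (|x| + |y| + |z|) ≤ 20 * (l1 + l2 + l3) * D := by
    have := abs_nonneg x; have := abs_nonneg y; have := abs_nonneg z
    linarith
  have p1 : 0 ≤ (2 : ℝ) ^ 20 * (3 * M) * (r + D) := by positivity
  have p2 : 0 ≤ r * (20 * (l1 + l2 + l3)) := by positivity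
  rw [hCC]
  linarith

theorem closeness {F : P2 → Fin 3 → ℝ} {h11 h12 h22 : P2 → ℝ} {e : Fin 3 → ℝ}
    {c q : P2} {r cs sn σ M : ℝ} {L1 L2 L3 : NNReal} {K : Set P2}
    (sFi : ∀ i, ContDiff ℝ ∞ fun v => F v i) (sg : ContDiff ℝ ∞ (height F e))
    (he : ∑ i, e i * e i = 1) (hr : 0 < r) (hr1 : r ≤ 1) (hσ : σ ≠ 0)
    (hcs : cs ^ 2 + sn ^ 2 = 1) (hM0 : 0 < M)
    (e11 : h11 q = σ * cs ^ 2) (e12 : h12 q = σ * (cs * sn)) (e22 : h22 q = σ * sn ^ 2)
    (g0 : dp (height F e) c = 0 ∧ dy (height F e) c = 0)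
    (A11 : dp (dp (height F e)) c = h11 c) (A12 : dy (dp (height F e)) c = h12 c)
    (A22 : dy (dy (height F e)) c = h22 c)
    (hL1 : LipschitzOnWith L1 h11 K) (hL2 : LipschitzOnWith L2 h12 K)
    (hL3 : LipschitzOnWith L3 h22 K) (hcc : c ∈ K) (hqK : q ∈ K)
    (hMb : ∀ k ≤ 18, ∀ i, ∀ z ∈ K, ‖iteratedFDeriv ℝ k (fun v => F v i) z‖ ≤ M)
    (hin : ∀ X : P2, rsq X < 40 → simil c r cs sn X ∈ K) :
    dp (scaled (height F e) c r cs sn σ) 0 = 0 ∧
    ∀ k ≤ 18, ∀ X ∈ {X : P2 | rsq X < 40},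
      ‖iteratedFDeriv ℝ k (fun v => scaled (height F e) c r cs sn σ v - para v) X‖
        ≤ 1000 * (((2 : ℝ) ^ 20 * (3 * M) + 20 * ((L1 : ℝ) + L2 + L3)) * (r + ‖c - q‖) / |σ|) := by
  set g := height F e with hg
  set Z := scaled g c r cs sn σ with hZ
  have sZ : ContDiff ℝ ∞ Z := smooth_scaled sg σ
  have hσpos : 0 < |σ| := abs_pos.2 hσ
  have h0mem : rsq (0 : P2) < 40 := by simp [rsq]
  have hZ0 : Z 0 = 0 := by simp [hZ, scaled, simil]
  have hsim0 : simil c r cs sn 0 = c := by simp [simil]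
  have hD0 : dp Z 0 = 0 ∧ dy Z 0 = 0 := by
    rw [hZ, dp_scaled sg, dy_scaled sg]
    simp only [dp_simil (diff_of_smooth sg _), dy_simil (diff_of_smooth sg _), hsim0, g0.1, g0.2]
    simp
  have sf : ContDiff ℝ ∞ (fun v => Z v - para v) := sZ.sub smooth_para
  set CC := (2 : ℝ) ^ 20 * (3 * M) + 20 * ((L1 : ℝ) + L2 + L3) with hCC
  set B := CC * (r + ‖c - q‖) / |σ| with hB
  have hB0 : 0 ≤ B := by positivity
  refine ⟨hD0.1, ?_⟩
  refine close_of_jets sf (convex_rsq 40) h0mem (fun X hX => norm_le_of_rsq hX) hB0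
    (by simp [hZ0, para]) ?_ ?_ ?_
  · rw [fderiv_fun_sub (diff_of_smooth sZ 0) (diff_of_smooth smooth_para 0), fderiv_para]
    have : fderiv ℝ Z 0 = 0 := by
      ext
      · simpa [dp] using hD0.1
      · simpa [dy] using hD0.2
    simp [this]
  · refine (norm_second_le sf 0).trans ?_
    have d1 : dp (fun v => Z v - para v) = fun v => dp Z v - v.1 := by
      funext v; unfold dp
      rw [fderiv_fun_sub (diff_of_smooth sZ v) (diff_of_smooth smooth_para v), fderiv_para]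
      simp
    have d2 : dy (fun v => Z v - para v) = dy Z := by
      funext v; unfold dy
      rw [fderiv_fun_sub (diff_of_smooth sZ v) (diff_of_smooth smooth_para v), fderiv_para]
      simp
    have p11 : dp (dp fun v => Z v - para v) 0 = dp (dp Z) 0 - 1 := by
      rw [d1]; show fderiv ℝ (fun v => dp Z v - v.1) 0 (1, 0) = fderiv ℝ (dp Z) 0 (1, 0) - 1
      rw [fderiv_fun_sub (diff_of_smooth (smooth_dp sZ) 0) differentiableAt_fst, fderiv_fst]
      simp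
    have p12 : dy (dp fun v => Z v - para v) 0 = dy (dp Z) 0 := by
      rw [d1]; show fderiv ℝ (fun v => dp Z v - v.1) 0 (0, 1) = fderiv ℝ (dp Z) 0 (0, 1)
      rw [fderiv_fun_sub (diff_of_smooth (smooth_dp sZ) 0) differentiableAt_fst, fderiv_fst]
      simp
    rw [p11, p12, d2]
    obtain ⟨s1, s2, s3⟩ := second_simil (c := c) (r := r) (cs := cs) (sn := sn) sg (0 : P2)
    have hsZ : ∀ (u : P2 → ℝ), ContDiff ℝ ∞ u → ∀ (v w : P2),
        fderiv ℝ (fun X => (σ * r ^ 2)⁻¹ * u X) v w = (σ * r ^ 2)⁻¹ * fderiv ℝ u v w := by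
      intro u hu v w; rw [fderiv_const_mul (diff_of_smooth hu v)]; simp
    have t1 : dp (dp Z) 0 = (cs ^ 2 * h11 c + 2 * cs * sn * h12 c + sn ^ 2 * h22 c) / σ := by
      rw [hZ, dp_scaled sg]
      show fderiv ℝ _ _ _ = _
      rw [hsZ _ (smooth_dp (smooth_simil sg c r cs sn))]
      show _ * dp _ _ = _
      rw [s1, hsim0, A11, A12, A22]; field_simp
    have t2 : dy (dp Z) 0 = (-(cs * sn) * h11 c + (cs ^ 2 - sn ^ 2) * h12 c + cs * sn * h22 c) / σ := by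
      rw [hZ, dp_scaled sg]
      show fderiv ℝ _ _ _ = _
      rw [hsZ _ (smooth_dp (smooth_simil sg c r cs sn))]
      show _ * dy _ _ = _
      rw [s2, hsim0, A11, A12, A22]; field_simp
    have t3 : dy (dy Z) 0 = (sn ^ 2 * h11 c - 2 * cs * sn * h12 c + cs ^ 2 * h22 c) / σ := by
      rw [hZ, dy_scaled sg]
      show fderiv ℝ _ _ _ = _
      rw [hsZ _ (smooth_dy (smooth_simil sg c r cs sn))]
      show _ * dy _ _ = _
      rw [s3, hsim0, A11, A12, A22]; field_simp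
    rw [t1, t2, t3]
    set x := h11 c - h11 q with hx
    set y := h12 c - h12 q with hy
    set z := h22 c - h22 q with hz
    have bx : |x| ≤ L1 * ‖c - q‖ := by simpa [Real.norm_eq_abs, dist_eq_norm] using hL1.norm_sub_le hcc hqK
    have by' : |y| ≤ L2 * ‖c - q‖ := by simpa [Real.norm_eq_abs, dist_eq_norm] using hL2.norm_sub_le hcc hqK
    have bz : |z| ≤ L3 * ‖c - q‖ := by simpa [Real.norm_eq_abs, dist_eq_norm] using hL3.norm_sub_le hcc hqK
    have r1 : (cs ^ 2 * h11 c + 2 * cs * sn * h12 c + sn ^ 2 * h22 c) / σ - 1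
        = (cs ^ 2 * x + 2 * cs * sn * y + sn ^ 2 * z) / σ := by
      rw [hx, hy, hz, e11, e12, e22]; field_simp
      linear_combination (σ * (cs ^ 2 + sn ^ 2) + σ) * hcs
    have r2 : (-(cs * sn) * h11 c + (cs ^ 2 - sn ^ 2) * h12 c + cs * sn * h22 c) / σ
        = (-(cs * sn) * x + (cs ^ 2 - sn ^ 2) * y + cs * sn * z) / σ := by
      rw [hx, hy, hz, e11, e12, e22]; field_simp; ring
    have r3 : (sn ^ 2 * h11 c - 2 * cs * sn * h12 c + cs ^ 2 * h22 c) / σ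
        = (sn ^ 2 * x - 2 * cs * sn * y + cs ^ 2 * z) / σ := by
      rw [hx, hy, hz, e11, e12, e22]; field_simp; ring
    rw [r1, r2, r3, abs_div, abs_div, abs_div, hB]
    have hnum : |cs ^ 2 * x + 2 * cs * sn * y + sn ^ 2 * z|
        + 2 * |-(cs * sn) * x + (cs ^ 2 - sn ^ 2) * y + cs * sn * z|
        + |sn ^ 2 * x - 2 * cs * sn * y + cs ^ 2 * z| ≤ CC * (r + ‖c - q‖) :=
      second_bound hcs hr.le hM0.le (norm_nonneg _) (by positivity) bx by' bz hCC
    refine le_trans (le_of_eq ?_) (div_le_div_of_nonneg_right hnum hσpos.le)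
    field_simp
  · intro k hk3 hk18 X hX
    rw [fun_iteratedFDeriv_sub_apply (sZ.of_le (ik k)).contDiffAt
      (smooth_para.of_le (ik k)).contDiffAt, iter_para hk3, sub_zero]
    have sgk : ContDiff ℝ ∞ (fun v => g (simil c r cs sn v)) := smooth_simil sg c r cs sn
    have eZ : Z = fun v => (σ * r ^ 2)⁻¹ • g (simil c r cs sn v) + (-((σ * r ^ 2)⁻¹ * g c)) := by
      funext v; simp [hZ, scaled, sub_eq_add_neg]
    rw [eZ, fun_iteratedFDeriv_add_apply (((sgk.const_smul _).of_le (ik k)).contDiffAt)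
        contDiffAt_const, iteratedFDeriv_const_of_ne (by omega), Pi.zero_apply, add_zero,
      iteratedFDeriv_const_smul_apply' (sgk.of_le (ik k)).contDiffAt, norm_smul, Real.norm_eq_abs]
    have hgk : ‖iteratedFDeriv ℝ k g (simil c r cs sn X)‖ ≤ 3 * M :=
      norm_iter_height sFi (abs_le_one_of_unit he)
        fun j => hMb k hk18 j _ (hin X hX)
    have hn := (norm_iter_simil sg hr.le hcs k).trans
      (mul_le_mul_of_nonneg_right hgk (by positivity))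
    refine (mul_le_mul_of_nonneg_left hn (abs_nonneg _)).trans ?_
    have hk' : (2 * r) ^ k ≤ 2 ^ 20 * r ^ 3 := by
      rw [mul_pow]
      exact mul_le_mul (pow_le_pow_right₀ (by norm_num) (by omega))
        (pow_le_pow_of_le_one hr.le hr1 hk3) (by positivity) (by positivity)
    rw [hB, abs_inv, abs_mul, abs_of_pos (by positivity : 0 < r ^ 2)]
    calc (|σ| * r ^ 2)⁻¹ * (3 * M * (2 * r) ^ k)
        ≤ (|σ| * r ^ 2)⁻¹ * (3 * M * (2 ^ 20 * r ^ 3)) := by gcongr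
      _ = 2 ^ 20 * (3 * M) * r / |σ| := by field_simp
      _ ≤ CC * (r + ‖c - q‖) / |σ| := by
        gcongr
        · rw [hCC]; linarith [show (0:ℝ) ≤ 20 * ((L1 : ℝ) + L2 + L3) by positivity]
        · linarith [norm_nonneg (c - q)]

theorem island_normalised {E : P2 → ℝ} {F : P2 → Fin 3 → ℝ} {N : P2 → Fin 3 → ℝ}
    {h11 h12 h22 : P2 → ℝ} {B0 : Set P2} {c : P2} {r cs sn σ η lam : ℝ} {m : ℕ}
    (sE : ContDiff ℝ ∞ E) (posE : ∀ z, 0 < E z) (sg : ∀ e, ContDiff ℝ ∞ (height F e))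
    (hdata : ∀ z ∈ B0,
      (∑ i, N z i * N z i) = 1 ∧ h11 z * h22 z - h12 z ^ 2 = curvTerm E z ∧
      (h11 z = 0 → h12 z = 0 → h22 z = 0 → fderiv ℝ N z = 0) ∧
      (∀ e : Fin 3 → ℝ,
        hess11 E (height F e) z = h11 z * (∑ i, e i * N z i) ∧
        hess12 E (height F e) z = h12 z * (∑ i, e i * N z i) ∧
        hess22 E (height F e) z = h22 z * (∑ i, e i * N z i) ∧
        (∑ i, e i * e i) * E z =
          (∑ i, e i * N z i) ^ 2 * E z + dp (height F e) z ^ 2 + dy (height F e) z ^ 2))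
    (eqn : ∀ z ∈ B0, ∀ e : Fin 3 → ℝ, ∑ i, e i * e i = 1 →
      hess11 E (height F e) z * hess22 E (height F e) z - hess12 E (height F e) z ^ 2
        = curvTerm E z * (1 - (dp (height F e) z ^ 2 + dy (height F e) z ^ 2) / E z))
    (hr : 0 < r) (hσ : σ ≠ 0) (hcs : cs ^ 2 + sn ^ 2 = 1)
    (hcK : ∀ z, ‖z - c‖ ≤ 8 * r → z ∈ B0)
    (hEisl : ∀ z, ‖z - c‖ < 8 * r → E z = 1 + isl c r η (lam ^ (40 + m))⁻¹ lam z) :
    (∑ i, N c i * N c i) = 1 ∧
    (dp (height F (N c)) c = 0 ∧ dy (height F (N c)) c = 0) ∧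
    dp (dp (height F (N c))) c = h11 c ∧ dy (dp (height F (N c))) c = h12 c ∧
    dy (dy (height F (N c))) c = h22 c ∧
    (∀ X : P2, rsq X < 40 → ‖simil c r cs sn X - c‖ < 8 * r) ∧
    ∀ X : P2, rsq X < 40 →
      hess11 (fun v => 1 + η / σ ^ 2 * (σ * r) ^ 2 * template (lam ^ (40 + m))⁻¹ lam v)
          (scaled (height F (N c)) c r cs sn σ) X
        * hess22 (fun v => 1 + η / σ ^ 2 * (σ * r) ^ 2 * template (lam ^ (40 + m))⁻¹ lam v)
          (scaled (height F (N c)) c r cs sn σ) X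
      - hess12 (fun v => 1 + η / σ ^ 2 * (σ * r) ^ 2 * template (lam ^ (40 + m))⁻¹ lam v)
          (scaled (height F (N c)) c r cs sn σ) X ^ 2
      = curvTerm (fun v => 1 + η / σ ^ 2 * (σ * r) ^ 2 * template (lam ^ (40 + m))⁻¹ lam v) X
          / (σ * r) ^ 2
        * (1 - (σ * r) ^ 2 * (dp (scaled (height F (N c)) c r cs sn σ) X ^ 2
            + dy (scaled (height F (N c)) c r cs sn σ) X ^ 2)
          / (1 + η / σ ^ 2 * (σ * r) ^ 2 * template (lam ^ (40 + m))⁻¹ lam X)) := by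
  have hcB : c ∈ B0 := hcK c (by simp; linarith)
  set e := N c with hedef
  have he : ∑ k, e k * e k = 1 := (hdata c hcB).1
  set g := height F e with hg
  have hsg : ContDiff ℝ ∞ g := sg e
  obtain ⟨-, -, -, hh⟩ := hdata c hcB
  obtain ⟨a1, a2, a3, a4⟩ := hh e
  rw [he] at a1 a2 a3 a4
  have g0 : dp g c = 0 ∧ dy g c = 0 := by
    constructor <;> nlinarith [sq_nonneg (dp g c), sq_nonneg (dy g c)]
  have A11 : dp (dp g) c = h11 c := by
    have := a1; unfold hess11 at this; rw [g0.1, g0.2] at this; simpa using this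
  have A12 : dy (dp g) c = h12 c := by
    have := a2; unfold hess12 at this; rw [g0.1, g0.2] at this; simpa using this
  have A22 : dy (dy g) c = h22 c := by
    have := a3; unfold hess22 at this; rw [g0.1, g0.2] at this; simpa using this
  have in8 : ∀ X : P2, rsq X < 40 → ‖simil c r cs sn X - c‖ < 8 * r := by
    intro X hX
    have hX1 : ‖rot 1 cs sn X‖ ^ 2 ≤ rsq X := (sq_norm_le_rsq _).trans_eq (rsq_rot hcs X)
    have e1 : rot r cs sn X = r • rot 1 cs sn X := by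
      simp only [rot_apply, Prod.smul_mk, smul_eq_mul]; ext <;> ring
    rw [simil, add_sub_cancel_right, e1, norm_smul, Real.norm_eq_abs, abs_of_pos hr, mul_comm 8 r]
    refine mul_lt_mul_of_pos_left ?_ hr
    nlinarith [norm_nonneg (rot 1 cs sn X)]
  set s := (lam ^ (40 + m))⁻¹ with hsdef
  have htmp : ∀ X : P2, rsq X < 40 → E (simil c r cs sn X)
      = 1 + η / σ ^ 2 * (σ * r) ^ 2 * template s lam X := by
    intro X hX
    rw [hEisl _ (in8 X hX)]
    have e1 : r⁻¹ • (simil c r cs sn X - c) = rot 1 cs sn X := by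
      rw [simil, add_sub_cancel_right]
      simp only [rot_apply, Prod.smul_mk, smul_eq_mul]; ext <;> field_simp
    rw [isl, e1, template_rot hcs]
    field_simp
  have hopen : IsOpen {X : P2 | rsq X < 40} := isOpen_lt smooth_rsq.continuous continuous_const
  -- the Darboux equation
  have heq : ∀ X : P2, rsq X < 40 →
      hess11 (fun v => 1 + η / σ ^ 2 * (σ * r) ^ 2 * template s lam v) (scaled g c r cs sn σ) X
        * hess22 (fun v => 1 + η / σ ^ 2 * (σ * r) ^ 2 * template s lam v) (scaled g c r cs sn σ) X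
      - hess12 (fun v => 1 + η / σ ^ 2 * (σ * r) ^ 2 * template s lam v) (scaled g c r cs sn σ) X ^ 2
      = curvTerm (fun v => 1 + η / σ ^ 2 * (σ * r) ^ 2 * template s lam v) X / (σ * r) ^ 2
        * (1 - (σ * r) ^ 2 * (dp (scaled g c r cs sn σ) X ^ 2 + dy (scaled g c r cs sn σ) X ^ 2)
          / (1 + η / σ ^ 2 * (σ * r) ^ 2 * template s lam X)) := by
    intro X hX
    have hev : (fun v => 1 + η / σ ^ 2 * (σ * r) ^ 2 * template s lam v)
        =ᶠ[nhds X] fun v => E (simil c r cs sn v) := by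
      filter_upwards [hopen.mem_nhds hX] with v hv
      exact (htmp v hv).symm
    obtain ⟨q1, q2, q3, q4⟩ := congr_data (Z := scaled g c r cs sn σ) hev
    rw [q1, q2, q3, q4, ← htmp X hX]
    exact darboux_simil hsg sE hr.ne' hσ hcs X (posE _).ne'
      (eqn _ (hcK _ (in8 X hX).le) e he)
  exact ⟨he, g0, A11, A12, A22, in8, heq⟩

lemma rho_small {x m1 d ρ : ℝ} (hx : 0 ≤ x) (hm : 1 ≤ m1) (h1 : x * m1 ^ 4 ≤ d) (hd : d ≤ 1)
    (h2 : 200 ≤ m1 * ρ) : 9 * x ≤ ρ / 16 := by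
  have h4 : m1 ≤ m1 ^ 4 := le_self_pow₀ hm (by norm_num)
  have h5 : x * m1 ≤ 1 := by nlinarith
  nlinarith

lemma scale_bounds {σ r η m1 x d : ℝ} (hσ : 0 < |σ|) (h1 : |σ| ≤ m1) (h2 : |σ|⁻¹ ≤ m1)
    (hm : 1 ≤ m1) (hr : 0 ≤ r) (hrx : r ≤ x) (hx1 : x ≤ 1 / 4) (hd : x * m1 ^ 4 ≤ d) (hη : 0 ≤ η) :
    (σ * r) ^ 2 ≤ d ∧ η / σ ^ 2 ≤ η * m1 ^ 2 ∧ η / m1 ^ 2 ≤ η / σ ^ 2 := by
  refine ⟨?_, ?_, ?_⟩
  · rw [mul_pow, ← sq_abs σ]
    have hrr : r ^ 2 ≤ x := by nlinarith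
    calc |σ| ^ 2 * r ^ 2 ≤ m1 ^ 2 * x :=
          mul_le_mul (pow_le_pow_left₀ (abs_nonneg _) h1 2) hrr (sq_nonneg r) (sq_nonneg m1)
      _ ≤ m1 ^ 4 * x :=
          mul_le_mul_of_nonneg_right (pow_le_pow_right₀ hm (by norm_num)) (by linarith)
      _ ≤ d := by linarith
  · rw [← sq_abs σ, div_eq_mul_inv, ← inv_pow]
    exact mul_le_mul_of_nonneg_left (pow_le_pow_left₀ (by positivity) h2 2) hη
  · rw [← sq_abs σ]
    exact div_le_div_of_nonneg_left hη (by positivity) (pow_le_pow_left₀ (abs_nonneg _) h1 2)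

lemma close_bound {σ r m1 x d D CC : ℝ} (hσ : 0 < |σ|) (h2 : |σ|⁻¹ ≤ m1) (hm : 1 ≤ m1)
    (hC : 0 ≤ CC) (hr : 0 ≤ r) (_hD : 0 ≤ D) (hrx : r ≤ x) (hDx : D ≤ x)
    (hCm : 2000 * CC ≤ m1) (hd : x * m1 ^ 4 ≤ d) : 1000 * (CC * (r + D) / |σ|) ≤ d := by
  have h1 : CC * (r + D) / |σ| ≤ CC * (2 * x) * m1 := by
    rw [div_eq_mul_inv]
    exact mul_le_mul (mul_le_mul_of_nonneg_left (by linarith) hC) h2 (by positivity)
      (mul_nonneg hC (by linarith))
  have hx : 0 ≤ x := by linarith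
  have h3 : m1 * (m1 * x) ≤ d := by
    calc m1 * (m1 * x) = m1 ^ 2 * x := by ring
      _ ≤ m1 ^ 4 * x := mul_le_mul_of_nonneg_right (pow_le_pow_right₀ hm (by norm_num)) hx
      _ ≤ d := by linarith
  nlinarith [mul_le_mul_of_nonneg_right hCm (mul_nonneg (by linarith : (0:ℝ) ≤ m1) hx)]

lemma tri3 (z c q o : P2) {a b d R : ℝ} (h1 : ‖z - c‖ ≤ a) (h2 : ‖c - q‖ ≤ b) (h3 : ‖q - o‖ = d)
    (h4 : a + b ≤ R) : ‖z - o‖ ≤ d + R := by
  linarith [norm_sub_le_norm_sub_add_norm_sub z c o, norm_sub_le_norm_sub_add_norm_sub c q o]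

theorem final (hcore : CoreSpec) (hfam : FamilySpec) (hsurf : SurfaceSpec) (hsq : SquareSpec) :
    FinalSpec := by
  obtain ⟨L, hL⟩ := hfam
  choose δc η0c hδc hη0c hc using fun m : ℕ => hcore L (40 + m) (by omega)
  choose δf hδf hf using fun m : ℕ => hL (δc m) (hδc m)
  let δ : ℕ → ℝ := fun m => min 1 (δf m)
  have hδ : ∀ m, 0 < δ m := fun m => lt_min one_pos (hδf m)
  classical
  let Λ : ℕ → ℝ → ℝ := fun m η1 =>
    if h : 0 < η1 then Classical.choose (hc m η1 1 h le_rfl) else 1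
  obtain ⟨E, sE, posE, hsquare, hflat, hisl⟩ := exists_metric Λ hδ hη0c
  refine ⟨E, sE, posE, fun U hU h0 => ?_⟩
  rintro ⟨F0, hF0⟩
  obtain ⟨ρ, F, hρ, sF, hF⟩ := exists_global hU h0 hF0
  obtain ⟨N, h11, h12, h22, sN, s11, s12, s22, hdata⟩ :=
    hsurf E _ F Metric.isOpen_ball sE posE hF
  have sFi : ∀ i, ContDiff ℝ ∞ fun v => F v i := fun i => contDiff_pi.1 sF i
  let K := Metric.closedBall (0 : P2) (ρ / 2)
  have hKc : IsCompact K := isCompact_closedBall _ _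
  have hKU : K ⊆ Metric.ball 0 ρ := Metric.closedBall_subset_ball (by linarith)
  -- uniform bounds
  have hb : ∀ (k : ℕ) (i : Fin 3), ∃ C, ∀ z ∈ K, ‖iteratedFDeriv ℝ k (fun v => F v i) z‖ ≤ C :=
    fun k i => hKc.exists_bound_of_continuousOn
      ((sFi i).continuous_iteratedFDeriv (ik k)).continuousOn
  choose Cb hCb using hb
  set M := 1 + ∑ k ∈ Finset.range 19, ∑ i, |Cb k i| with hM
  have hM0 : 0 < M := by positivity
  have hMb : ∀ k ≤ 18, ∀ i, ∀ z ∈ K, ‖iteratedFDeriv ℝ k (fun v => F v i) z‖ ≤ M := by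
    intro k hk i z hz
    have h1 : |Cb k i| ≤ ∑ j, |Cb k j| :=
      Finset.single_le_sum (f := fun j => |Cb k j|) (fun j _ => abs_nonneg _) (Finset.mem_univ i)
    have h2 : ∑ j, |Cb k j| ≤ ∑ l ∈ Finset.range 19, ∑ j, |Cb l j| :=
      Finset.single_le_sum (f := fun l => ∑ j, |Cb l j|) (fun l _ => by positivity)
        (Finset.mem_range.2 (by omega))
    linarith [hCb k i z hz, le_abs_self (Cb k i)]
  obtain ⟨L1, hL1⟩ := (s11.mono hKU).exists_lipschitzOnWith (by simp) (convex_closedBall _ _) hKc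
  obtain ⟨L2, hL2⟩ := (s12.mono hKU).exists_lipschitzOnWith (by simp) (convex_closedBall _ _) hKc
  obtain ⟨L3, hL3⟩ := (s22.mono hKU).exists_lipschitzOnWith (by simp) (convex_closedBall _ _) hKc
  obtain ⟨r0, hr0, hsqc⟩ := hsq (3 * M) (by positivity)
  -- a small square
  obtain ⟨n, hn⟩ := exists_pow_lt_of_lt_one (show 0 < min r0 (ρ / 8) from lt_min hr0 (by linarith))
    (show (1 / 2 : ℝ) < 1 by norm_num)
  have hp : (0:ℝ) < (1 / 2) ^ n := by positivity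
  have hn1 : rs n ≤ r0 := by unfold rs; linarith [min_le_left r0 (ρ / 8)]
  have hside : side n ≤ ρ / 8 := by unfold side; linarith [min_le_right r0 (ρ / 8)]
  have hcn : ‖cn n‖ ≤ ρ / 8 := by
    have : ‖cn n‖ = (1 / 2 : ℝ) ^ n := by simp [cn, Prod.norm_def]
    rw [this]; linarith [min_le_right r0 (ρ / 8)]
  have inK : ∀ z, ‖z - cn n‖ ≤ side n + ρ / 16 → z ∈ K := fun z hz => by
    rw [mem_closedBall_zero_iff]
    linarith [norm_le_norm_sub_add z (cn n)]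
  have inB : ∀ z, ‖z - cn n‖ ≤ side n + ρ / 16 → z ∈ Metric.ball (0 : P2) ρ :=
    fun z hz => hKU (inK z hz)
  have eqn : ∀ z ∈ Metric.ball (0 : P2) ρ, ∀ e : Fin 3 → ℝ, ∑ i, e i * e i = 1 →
      hess11 E (height F e) z * hess22 E (height F e) z - hess12 E (height F e) z ^ 2
        = curvTerm E z
          * (1 - (dp (height F e) z ^ 2 + dy (height F e) z ^ 2) / E z) := by
    intro z hz e he
    obtain ⟨-, hdet, -, hh⟩ := hdata z hz
    obtain ⟨a1, a2, a3, a4⟩ := hh e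
    rw [he, one_mul] at a4
    have : 1 - (dp (height F e) z ^ 2 + dy (height F e) z ^ 2) / E z = (∑ i, e i * N z i) ^ 2 := by
      have := (posE z).ne'
      field_simp
      linarith
    rw [this, a1, a2, a3, ← hdet]; ring
  have smooth_h : ∀ e, ContDiff ℝ ∞ (height F e) := fun e => by
    unfold height; exact ContDiff.sum fun i _ => contDiff_const.mul (sFi i)
  -- a nonplanar boundary point
  obtain ⟨q, hq, hne⟩ := exists_nonplanar hρ sE smooth_h sFi sN hdata eqn hMb inK inB hn1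
    hsqc (hsquare n)
  -- principal frame at q
  have hdet : h11 q * h22 q - h12 q ^ 2 = 0 := by
    rw [(hdata q (inB q (by linarith))).2.1, hflat n q hq]
  obtain ⟨σ, cs, sn, hσ, hcs, e11, e12, e22⟩ := exists_frame hdet hne
  set CC := (2 : ℝ) ^ 20 * (3 * M) + 20 * ((L1 : ℝ) + L2 + L3) with hCC
  have hCC0 : 0 < CC := by positivity
  obtain ⟨i, hi⟩ := exists_nat_ge (max (max |σ| |σ|⁻¹) (max (2000 * CC) (max 1 (200 / ρ))))
  simp only [max_le_iff] at hi
  obtain ⟨⟨hi1, hi2⟩, hi3, hi4, hi5⟩ := hi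
  obtain ⟨c, r, η, lam, hr, hrρ, hcq, hη, hηc, hηd, hlam, hΛ, hlamd, hs, hEisl⟩ := hisl n i q hq
  set m := lev n i with hm
  set m1 := (m : ℝ) + 1 with hm1
  have him : (i : ℝ) + 1 ≤ m1 := by
    rw [hm1]; have : (i : ℝ) ≤ m := by rw [hm]; unfold lev; exact_mod_cast (by omega : i ≤ n + i + 1)
    linarith
  have hm10 : 1 ≤ m1 := by linarith [(Nat.cast_nonneg i : (0:ℝ) ≤ i)]
  have hρm : rho δ m ≤ δ m / m1 ^ 4 := min_le_right _ _
  have hδ1 : δ m ≤ 1 := min_le_left _ _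
  have hδle : δ m ≤ δf m := min_le_right _ _
  have hρ1 : rho δ m * m1 ^ 4 ≤ δ m := (le_div_iff₀ (by positivity)).1 hρm
  have hρ0 : 0 < rho δ m := rho_pos hδ m
  have hσpos : 0 < |σ| := abs_pos.2 hσ
  have hσ1 : |σ| ≤ m1 := by linarith
  have hσ2 : |σ|⁻¹ ≤ m1 := by linarith
  have hρsmall : 9 * rho δ m ≤ ρ / 16 := by
    have h200 : 200 ≤ m1 * ρ := by
      have : 200 / ρ ≤ m1 := by linarith
      rwa [div_le_iff₀ hρ] at this
    exact rho_small hρ0.le hm10 hρ1 hδ1 h200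
  have hcK : ∀ z, ‖z - c‖ ≤ 8 * r → z ∈ K := fun z hz => inK z (by
    exact tri3 z c q (cn n) hz hcq hq (by linarith))
  have hcc : c ∈ K := hcK c (by simp; linarith)
  have hcB := hKU hcc
  obtain ⟨he, g0, A11, A12, A22, in8, heq⟩ := island_normalised (σ := σ) sE posE smooth_h hdata eqn
    hr hσ hcs (fun z hz => hKU (hcK z hz)) hEisl
  have sg : ContDiff ℝ ∞ (height F (N c)) := smooth_h (N c)
  set Z := scaled (height F (N c)) c r cs sn σ with hZ
  have sZ : ContDiff ℝ ∞ Z := smooth_scaled sg σ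
  set s := (lam ^ (40 + m))⁻¹ with hsdef
  have hlam0 : 0 < lam := by linarith
  have hspos : 0 < s := by rw [hsdef]; positivity
  have hεp : 0 < (σ * r) ^ 2 := by positivity
  obtain ⟨hεle, hη', hη1⟩ := scale_bounds hσpos hσ1 hσ2 hm10 hr.le hrρ
    (min_le_left _ _) hρ1 hη.le
  -- closeness to the model
  obtain ⟨hD0, hclose⟩ := closeness sFi sg he hr
    (by linarith [show rho δ m ≤ 1 / 4 from min_le_left _ _]) hσ hcs hM0 e11 e12 e22 g0 A11 A12 A22
    hL1 hL2 hL3 hcc (inK q (by linarith)) hMb (fun X hX => hcK _ (in8 X hX).le)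
  set B := CC * (r + ‖c - q‖) / |σ| with hB
  have hB0 : 0 ≤ B := by positivity
  have hB1 : 1000 * B ≤ δf m :=
    (close_bound hσpos hσ2 hm10 hCC0.le hr.le (norm_nonneg _) hrρ hcq (by linarith) hρ1).trans hδle
  -- contradiction with the core estimate
  obtain ⟨Hb, Hs, x, p, hH, hS⟩ := hf m (η / σ ^ 2) ((σ * r) ^ 2) s lam (by positivity)
    (hη'.trans (hηd.trans hδle)) hεp (hεle.trans hδle) hspos
    (hs.trans hδle) ((inv_anti₀ (hδ m) hδle).trans hlamd) Z sZ.contDiffOn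
    (fun k hk v hv => (hclose k hk v hv).trans hB1) hD0 heq
  have hη1p : 0 < η / m1 ^ 2 := by positivity
  have hΛ' : Classical.choose (hc m (η / m1 ^ 2) 1 hη1p le_rfl) ≤ lam := by
    have := hΛ
    simp only [Λ] at this
    rw [dif_pos hη1p] at this
    exact this
  have hsN : s * lam ^ (40 + m) = 1 := inv_mul_cancel₀ (by positivity)
  exact (Classical.choose_spec (hc m (η / m1 ^ 2) 1 hη1p le_rfl)).2 lam (η / σ ^ 2) s hΛ' hη1
    (hη'.trans hηc) (by rw [hsN]; norm_num) (by rw [hsN]) Hb Hs x p hH hS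


end Vale.Agent.P229.Final
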