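import Vale.Agent.P229.Final.Centres
import Vale.Agent.P229.Final.Hess

/-
P229: the metric.
-/

namespace Vale.Agent.P229.Final

open Vale.Agent.P229
open scoped ContDiff

/-- Level attached to the layer `(n, i)`. -/
def lev (n i : ℕ) : ℕ := n + i + 1

lemma exists_sq_amp (n : ℕ) : ∃ η : ℝ, 0 < η ∧ η ≤ rs n ^ 4 ∧
    ∀ k ≤ n, ∀ z, ‖iteratedFDeriv ℝ k (sqb (cn n) (rs n) η) z‖ ≤ (1 / 2) ^ n / 16 := by
  choose C hC0 hC using sqb_bound
  have hr := rs_pos n
  set T := ∑ k ∈ Finset.range (n + 1), (rs n)⁻¹ ^ k * C k * 16 * 2 ^ n with hT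
  have hT0 : 0 ≤ T := Finset.sum_nonneg fun k _ => by have := hC0 k; positivity
  refine ⟨min 1 (rs n ^ 4) / (1 + T), by positivity,
    (div_le_self (by positivity) (by linarith)).trans (min_le_right _ _), fun k hk z => ?_⟩
  set η := min 1 (rs n ^ 4) / (1 + T) with hη
  have hη0 : 0 ≤ η := by positivity
  refine (hC k (cn n) (rs n) η hr hη0 z).trans ?_
  have h1 : η * T ≤ 1 := by
    rw [hη, div_mul_eq_mul_div, div_le_one (by linarith)]
    nlinarith [min_le_left (1 : ℝ) (rs n ^ 4), lt_min one_pos (pow_pos hr 4)]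
  have h2 : (rs n)⁻¹ ^ k * C k * 16 * 2 ^ n ≤ T :=
    Finset.single_le_sum (f := fun k => (rs n)⁻¹ ^ k * C k * 16 * 2 ^ n)
      (fun k _ => by have := hC0 k; positivity) (Finset.mem_range.2 (by omega))
  have h3 := (mul_le_mul_of_nonneg_left h2 hη0).trans h1
  have e : ((1 : ℝ) / 2) ^ n * 2 ^ n = 1 := by rw [← mul_pow]; norm_num
  have p2 : (0 : ℝ) < 2 ^ n := by positivity
  rw [le_div_iff₀ (by norm_num : (0:ℝ) < 16)]
  nlinarith

variable (δ η0 : ℕ → ℝ) (Λ : ℕ → ℝ → ℝ)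

/-- The conditions imposed on the amplitude and on the blob parameter of a layer. -/
def Amp (n i : ℕ) (a : ℝ × ℝ) : Prop :=
  0 < a.1 ∧ a.1 * ((lev n i : ℝ) + 1) ^ 2 ≤ η0 (lev n i) ∧
  a.1 * ((lev n i : ℝ) + 1) ^ 2 ≤ δ (lev n i) ∧
  1 ≤ a.2 ∧ Λ (lev n i) (a.1 / ((lev n i : ℝ) + 1) ^ 2) ≤ a.2 ∧ (δ (lev n i))⁻¹ ≤ a.2 ∧
  (a.2 ^ (40 + lev n i))⁻¹ ≤ δ (lev n i) ∧
  ∀ k ≤ lev n i, ∀ c z,
    (4 * num δ n i : ℝ)
      * ‖iteratedFDeriv ℝ k (isl c (irad δ n i) a.1 (a.2 ^ (40 + lev n i))⁻¹ a.2) z‖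
      ≤ (1 / 2) ^ lev n i / 16

variable {δ η0}

lemma exists_amp (hδ : ∀ m, 0 < δ m) (hη : ∀ m, 0 < η0 m) (n i : ℕ) :
    ∃ a, Amp δ η0 Λ n i a := by
  choose C hC0 hC using isl_bound
  set m := lev n i
  have hr := irad_pos hδ n i
  set r := irad δ n i
  set K : ℝ := 4 * num δ n i with hKdef
  have hK : 0 ≤ K := by positivity
  set T := ∑ k ∈ Finset.range (m + 1), K * (r ^ 2 * r⁻¹ ^ k * C k) * 16 * 2 ^ m with hT
  have hT0 : 0 ≤ T := Finset.sum_nonneg fun k _ => by have := hC0 k; positivity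
  set μ := min 1 (min (η0 m / ((m : ℝ) + 1) ^ 2) (δ m / ((m : ℝ) + 1) ^ 2)) with hμ
  have hμ0 : 0 < μ := lt_min one_pos (lt_min (div_pos (hη m) (by positivity))
    (div_pos (hδ m) (by positivity)))
  set η := μ / (1 + T) with hηdef
  have hη0 : 0 < η := by positivity
  have hημ : η ≤ μ := div_le_self hμ0.le (by linarith)
  have hM : (0 : ℝ) < ((m : ℝ) + 1) ^ 2 := by positivity
  set lam := max 1 (max (Λ m (η / ((m : ℝ) + 1) ^ 2)) (δ m)⁻¹) with hlam
  have hl : 1 ≤ lam := le_max_left _ _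
  have hld : (δ m)⁻¹ ≤ lam := (le_max_right _ _).trans (le_max_right _ _)
  refine ⟨(η, lam), hη0, ?_, ?_, hl, (le_max_left _ _).trans (le_max_right _ _), hld, ?_, ?_⟩
  · exact (le_div_iff₀ hM).1 (hημ.trans ((min_le_right _ _).trans (min_le_left _ _)))
  · exact (le_div_iff₀ hM).1 (hημ.trans ((min_le_right _ _).trans (min_le_right _ _)))
  · refine (inv_anti₀ (inv_pos.2 (hδ m)) (hld.trans (le_self_pow₀ hl (by omega)))).trans ?_
    rw [inv_inv]
  · intro k hk c z
    refine (mul_le_mul_of_nonneg_left (hC k (40 + m) c r η lam (by omega) hr hη0.le hl z) hK).trans ?_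
    have h1 : η * T ≤ 1 := by
      rw [hηdef, div_mul_eq_mul_div, div_le_one (by linarith)]
      nlinarith [min_le_left (1 : ℝ) (min (η0 m / ((m : ℝ) + 1) ^ 2) (δ m / ((m : ℝ) + 1) ^ 2))]
    have h2 : K * (r ^ 2 * r⁻¹ ^ k * C k) * 16 * 2 ^ m ≤ T :=
      Finset.single_le_sum (f := fun k => K * (r ^ 2 * r⁻¹ ^ k * C k) * 16 * 2 ^ m)
        (fun k _ => by have := hC0 k; positivity) (Finset.mem_range.2 (by omega))
    have h3 := (mul_le_mul_of_nonneg_left h2 hη0.le).trans h1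
    have e : ((1 : ℝ) / 2) ^ m * 2 ^ m = 1 := by rw [← mul_pow]; norm_num
    have p2 : (0 : ℝ) < 2 ^ m := by positivity
    rw [le_div_iff₀ (by norm_num : (0:ℝ) < 16)]
    nlinarith

/-- The properties of the metric used in the proof. -/
def MetricProps (δ η0 : ℕ → ℝ) (Λ : ℕ → ℝ → ℝ) (E : P2 → ℝ) : Prop :=
  ContDiff ℝ ∞ E ∧ (∀ z, 0 < E z) ∧
  (∀ n, ∃ η : ℝ, 0 < η ∧ η ≤ rs n ^ 4 ∧
    ∀ z, ‖z - cn n‖ ≤ side n → E z = 1 + sqb (cn n) (rs n) η z) ∧
  (∀ n q, ‖q - cn n‖ = side n → curvTerm E q = 0) ∧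
  ∀ n i q, ‖q - cn n‖ = side n → ∃ (c : P2) (r η lam : ℝ),
    0 < r ∧ r ≤ rho δ (lev n i) ∧ ‖c - q‖ ≤ rho δ (lev n i) ∧ 0 < η ∧
    η * ((lev n i : ℝ) + 1) ^ 2 ≤ η0 (lev n i) ∧ η * ((lev n i : ℝ) + 1) ^ 2 ≤ δ (lev n i) ∧
    1 ≤ lam ∧ Λ (lev n i) (η / ((lev n i : ℝ) + 1) ^ 2) ≤ lam ∧ (δ (lev n i))⁻¹ ≤ lam ∧
    (lam ^ (40 + lev n i))⁻¹ ≤ δ (lev n i) ∧
    ∀ z, ‖z - c‖ < 8 * r → E z = 1 + isl c r η (lam ^ (40 + lev n i))⁻¹ lam z

lemma continuous_curvTerm {E : P2 → ℝ} (hE : ContDiff ℝ ∞ E) (hpos : ∀ z, 0 < E z) :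
    Continuous (curvTerm E) := by
  have c0 := hE.continuous
  have c1 := (smooth_dp hE).continuous
  have c2 := (smooth_dy hE).continuous
  have c3 := (smooth_dp (smooth_dp hE)).continuous
  have c4 := (smooth_dy (smooth_dy hE)).continuous
  unfold curvTerm
  exact ((((c3.add c4).sub (((c1.pow 2).add (c2.pow 2)).div c0 fun z => (hpos z).ne')).neg)).div_const 2

theorem exists_metric (hδ : ∀ m, 0 < δ m) (hη : ∀ m, 0 < η0 m) :
    ∃ E, MetricProps δ η0 Λ E := by
  choose ηs hηs0 hηs4 hηsb using exists_sq_amp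
  choose am ham using exists_amp Λ hδ hη
  let sq : ℕ × ℕ → P2 → ℝ := fun p z => if p.2 = 0 then sqb (cn p.1) (rs p.1) (ηs p.1) z else 0
  let one : (p : ℕ × ℕ) → Fin 4 × Fin (num δ p.1 p.2) → P2 → ℝ := fun p s =>
    isl (ctr δ p.1 p.2 s.1 s.2) (irad δ p.1 p.2) (am p.1 p.2).1
      ((am p.1 p.2).2 ^ (40 + lev p.1 p.2))⁻¹ (am p.1 p.2).2
  let T : ℕ × ℕ → P2 → ℝ := fun p z => sq p z + ∑ s, one p s z
  have hl1 : ∀ p : ℕ × ℕ, 1 ≤ (am p.1 p.2).2 := fun p => (ham p.1 p.2).2.2.2.1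
  have hrp : ∀ p : ℕ × ℕ, 0 < irad δ p.1 p.2 := fun p => irad_pos hδ p.1 p.2
  have s_sq : ∀ p, ContDiff ℝ ∞ (sq p) := fun p => by
    by_cases h : p.2 = 0 <;> simp only [sq, h, if_true, if_false]
    · exact smooth_sqb _ _ _
    · exact contDiff_const
  have s_one : ∀ p s, ContDiff ℝ ∞ (one p s) := fun p s => smooth_isl _ _ _ _ _
  have sT : ∀ p, ContDiff ℝ ∞ (T p) := fun p =>
    (s_sq p).add (ContDiff.sum fun s _ => s_one p s)
  -- derivative bounds
  have hb : ∀ (k : ℕ) (p : ℕ × ℕ), k ≤ p.1 + p.2 → ∀ z,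
      ‖iteratedFDeriv ℝ k (T p) z‖ ≤ (1 / 2) ^ p.1 * (1 / 2) ^ p.2 / 8 := by
    intro k p hk z
    have hkk : (k : WithTop ℕ∞) ≤ (∞ : WithTop ℕ∞) := WithTop.coe_le_coe.2 le_top
    show ‖iteratedFDeriv ℝ k (fun z => sq p z + ∑ s, one p s z) z‖ ≤ _
    rw [fun_iteratedFDeriv_add_apply ((s_sq p).of_le hkk).contDiffAt
        (((ContDiff.sum fun s _ => s_one p s)).of_le hkk).contDiffAt,
      iteratedFDeriv_fun_sum_apply fun s _ => ((s_one p s).of_le hkk).contDiffAt]
    refine (norm_add_le _ _).trans ?_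
    have hq : (0 : ℝ) < (1 / 2) ^ p.1 * (1 / 2) ^ p.2 := by positivity
    have a1 : ‖iteratedFDeriv ℝ k (sq p) z‖ ≤ (1 / 2) ^ p.1 * (1 / 2) ^ p.2 / 16 := by
      by_cases h : p.2 = 0
      · have : sq p = sqb (cn p.1) (rs p.1) (ηs p.1) := by funext v; simp [sq, h]
        rw [this, h, pow_zero, mul_one]
        exact hηsb p.1 k (by omega) z
      · have : sq p = fun _ => 0 := by funext v; simp [sq, h]
        rw [this]
        rcases Nat.eq_zero_or_pos k with rfl | hk0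
        · simp; positivity
        · rw [iteratedFDeriv_const_of_ne (by omega)]; simp; positivity
    have a2 : ‖∑ s, iteratedFDeriv ℝ k (one p s) z‖ ≤ (1 / 2) ^ p.1 * (1 / 2) ^ p.2 / 16 := by
      refine (norm_sum_le _ _).trans ?_
      have hb1 : ∀ s : Fin 4 × Fin (num δ p.1 p.2), (4 * num δ p.1 p.2 : ℝ)
          * ‖iteratedFDeriv ℝ k (one p s) z‖ ≤ (1 / 2) ^ lev p.1 p.2 / 16 := fun s =>
        (ham p.1 p.2).2.2.2.2.2.2.2 k (by unfold lev; omega) _ z
      have hsum := Finset.sum_le_sum (s := Finset.univ) fun s _ => hb1 s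
      rw [← Finset.mul_sum, Finset.sum_const, Finset.card_univ, Fintype.card_prod,
        Fintype.card_fin, Fintype.card_fin, nsmul_eq_mul, Nat.cast_mul, Nat.cast_ofNat] at hsum
      have hn : (0:ℝ) < 4 * num δ p.1 p.2 := mul_pos (by norm_num) (num_pos _ _)
      refine (le_of_mul_le_mul_left hsum hn).trans ?_
      unfold lev
      rw [pow_add, pow_add, pow_one]
      linarith
    linarith
  have sumq : Summable fun p : ℕ × ℕ => ((1:ℝ) / 2) ^ p.1 * (1 / 2) ^ p.2 / 8 :=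
    (summable_geometric_two.mul_of_nonneg summable_geometric_two
      (fun _ => by positivity) (fun _ => by positivity)).div_const 8
  have hex : ∀ (k : ℕ) (p : ℕ × ℕ), ∃ v : ℝ,
      (∀ z, ‖iteratedFDeriv ℝ k (T p) z‖ ≤ v) ∧
      (k ≤ p.1 + p.2 → v = (1 / 2) ^ p.1 * (1 / 2) ^ p.2 / 8) := by
    intro k p
    by_cases hk : k ≤ p.1 + p.2
    · exact ⟨_, hb k p hk, fun _ => rfl⟩
    · obtain ⟨C, -, hC⟩ := exists_iter_bound (sT p) (R := 1 + ‖cn p.1‖ + side p.1
          + off δ p.1 p.2 + 7 * irad δ p.1 p.2 + rs p.1) (fun z hz => by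
        have hn := side_pos p.1
        have ho := off_pos hδ p.1 p.2
        have hr := rs_pos p.1
        have hi := hrp p
        have hz' : side p.1 + off δ p.1 p.2 + 7 * irad δ p.1 p.2 + rs p.1 ≤ ‖z - cn p.1‖ := by
          linarith [norm_le_norm_sub_add z (cn p.1)]
        show sq p z + ∑ s, one p s z = 0
        have q1 : sq p z = 0 := by
          simp only [sq]; split_ifs
          · exact sqb_zero hr (by linarith)
          · rfl
        rw [q1, zero_add]
        refine Finset.sum_eq_zero fun s _ => isl_zero hi (hl1 p) ?_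
        have := norm_ctr hδ p.1 p.2 s.1 s.2
        linarith [norm_sub_le_norm_sub_add_norm_sub z (ctr δ p.1 p.2 s.1 s.2) (cn p.1)]) k
      exact ⟨C, hC, fun h => absurd h hk⟩
  choose v hv hveq using hex
  have hsum : ∀ k, Summable (v k) := by
    intro k
    refine Summable.of_norm_bounded_eventually sumq ?_
    rw [Filter.eventually_cofinite]
    refine Set.Finite.subset ((Set.finite_Iio k).prod (Set.finite_Iio k)) fun p hp => ?_
    simp only [Set.mem_ofPred_eq] at hp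
    have : ¬ k ≤ p.1 + p.2 := fun hk => hp (by
      rw [hveq k p hk, Real.norm_eq_abs, abs_of_nonneg (by positivity)])
    exact ⟨Set.mem_Iio.2 (by omega), Set.mem_Iio.2 (by omega)⟩
  let E : P2 → ℝ := fun z => 1 + ∑' p, T p z
  have sE : ContDiff ℝ ∞ E := contDiff_const.add
    (contDiff_tsum (N := (⊤ : ℕ∞)) sT (fun k _ => hsum k) fun k i x _ => hv k i x)
  have hposE : ∀ z, 0 < E z := by
    intro z
    have hn : ∀ p, ‖T p z‖ ≤ (1 / 2) ^ p.1 * (1 / 2) ^ p.2 / 8 := fun p => by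
      have := hb 0 p (Nat.zero_le _) z
      rwa [norm_iteratedFDeriv_zero] at this
    have h4 : ∑' p : ℕ × ℕ, ((1:ℝ) / 2) ^ p.1 * (1 / 2) ^ p.2 / 8 = 1 / 2 := by
      rw [tsum_div_const, ← tsum_mul_tsum_of_summable_norm
        (f := fun n : ℕ => ((1:ℝ) / 2) ^ n) (g := fun n : ℕ => ((1:ℝ) / 2) ^ n)
        (summable_geometric_two.congr fun n => by simp) (summable_geometric_two.congr fun n => by simp)]
      rw [tsum_geometric_two]; norm_num
    have := tsum_of_norm_bounded (h4 ▸ sumq.hasSum) hn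
    rw [Real.norm_eq_abs, abs_le] at this
    show 0 < 1 + ∑' p, T p z
    linarith
  -- separation
  have far_of_other : ∀ {n : ℕ} {p : ℕ × ℕ} {z : P2}, p.1 ≠ n → ‖z - cn n‖ ≤ 2 * side n →
      T p z = 0 := by
    intro n p z hp hz
    have hsep := cn_sep hp
    have hn := side_pos n
    have hm := side_pos p.1
    have ho := off_le_quarter hδ p.1 p.2
    have hi := irad_le_off (δ := δ) p.1 p.2
    have hzc : 4 * side p.1 ≤ ‖z - cn p.1‖ := by
      linarith [norm_sub_le_norm_sub_add_norm_sub (cn p.1) z (cn n), norm_sub_rev z (cn p.1)]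
    have q1 : sq p z = 0 := by
      simp only [sq]; split_ifs
      · exact sqb_zero (rs_pos _) (by rw [side_eq] at hzc; linarith [rs_pos p.1])
      · rfl
    show sq p z + _ = 0
    rw [q1, zero_add]
    refine Finset.sum_eq_zero fun s _ => isl_zero (hrp p) (hl1 p) ?_
    have := norm_ctr hδ p.1 p.2 s.1 s.2
    linarith [norm_sub_le_norm_sub_add_norm_sub z (ctr δ p.1 p.2 s.1 s.2) (cn p.1)]
  have isl_out : ∀ {p : ℕ × ℕ} (s : Fin 4 × Fin (num δ p.1 p.2)) {z : P2},
      ‖z - cn p.1‖ ≤ side p.1 → one p s z = 0 := by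
    intro p s z hz
    refine isl_zero (hrp p) (hl1 p) ?_
    have := norm_ctr hδ p.1 p.2 s.1 s.2
    have := irad_le_off (δ := δ) p.1 p.2
    have := norm_sub_le_norm_sub_add_norm_sub (ctr δ p.1 p.2 s.1 s.2) z (cn p.1)
    linarith [norm_sub_rev z (ctr δ p.1 p.2 s.1 s.2), hrp p]
  have sqE : ∀ n z, ‖z - cn n‖ ≤ side n → E z = 1 + sqb (cn n) (rs n) (ηs n) z := by
    intro n z hz
    show 1 + ∑' p, T p z = _
    congr 1
    rw [tsum_eq_single ((n, 0) : ℕ × ℕ) fun p hp => ?_]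
    · show sq (n, 0) z + _ = _
      rw [Finset.sum_eq_zero fun s _ => isl_out (p := (n, 0)) s hz, add_zero]
      simp [sq]
    · by_cases h : p.1 = n
      · have h2 : p.2 ≠ 0 := fun h2 => hp (Prod.ext h h2)
        show sq p z + _ = 0
        rw [Finset.sum_eq_zero fun s _ => isl_out s (h ▸ hz), add_zero]
        simp [sq, h2]
      · exact far_of_other h (by linarith [side_pos n])
  refine ⟨E, sE, hposE, fun n => ⟨ηs n, hηs0 n, hηs4 n, sqE n⟩, ?_, ?_⟩
  · intro n q hq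
    have hc := continuous_curvTerm sE hposE
    have hs := side_pos n
    have h1 : ∀ t : ℝ, 3 / 4 < t → t < 1 → curvTerm E (cn n + t • (q - cn n)) = 0 := by
      intro t t0 t1
      have he : E =ᶠ[nhds (cn n + t • (q - cn n))] fun _ => (1:ℝ) := by
        have hnorm : ‖cn n + t • (q - cn n) - cn n‖ = t * side n := by
          rw [add_sub_cancel_left, norm_smul, Real.norm_eq_abs, abs_of_pos (by linarith), hq]
        have hf : Continuous fun z : P2 => ‖z - cn n‖ := by fun_prop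
        have hop : IsOpen {z : P2 | rs n < ‖z - cn n‖ ∧ ‖z - cn n‖ < side n} :=
          (isOpen_lt continuous_const hf).inter (isOpen_lt hf continuous_const)
        filter_upwards [hop.mem_nhds (show cn n + t • (q - cn n) ∈ _ from
          ⟨by rw [hnorm, side_eq]; nlinarith [rs_pos n], by rw [hnorm]; nlinarith⟩)] with z hz
        rw [sqE n z hz.2.le, sqb_zero (rs_pos n) hz.1.le, add_zero]
      rw [(congr_data (Z := E) he).2.2.2]
      have a1 : dp (fun _ : P2 => (1:ℝ)) = fun _ => 0 := by funext v; simp [dp]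
      have a2 : dy (fun _ : P2 => (1:ℝ)) = fun _ => 0 := by funext v; simp [dy]
      rw [curvTerm, a1, a2]
      simp [dp, dy]
    have hlim : Filter.Tendsto (fun t : ℝ => curvTerm E (cn n + t • (q - cn n)))
        (nhdsWithin 1 (Set.Iio 1)) (nhds (curvTerm E q)) := by
      have : Continuous fun t : ℝ => curvTerm E (cn n + t • (q - cn n)) := by fun_prop
      have h := (this.tendsto 1).mono_left (nhdsWithin_le_nhds (s := Set.Iio (1:ℝ)))
      simpa using h
    refine tendsto_nhds_unique hlim (tendsto_const_nhds.congr' ?_)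
    filter_upwards [Ioo_mem_nhdsLT (show (3:ℝ) / 4 < 1 by norm_num)] with t ht
    exact (h1 t ht.1 ht.2).symm
  · intro n i q hq
    obtain ⟨sd, k, hk⟩ := exists_near hδ n i hq
    obtain ⟨a1, a2, a3, a4, a5, a6, a7, -⟩ := ham n i
    have hr := hrp (n, i)
    have hd := off_le_rho hδ n i
    have hd0 := off_pos hδ n i
    have hsl := side_le n
    have hρ := rho_pos hδ (lev n i)
    have hd2 : 2 * off δ n i ≤ rho δ (lev n i) := by
      have : side n * rho δ (lev n i) ≤ 1 / 20 * rho δ (lev n i) :=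
        mul_le_mul_of_nonneg_right hsl hρ.le
      change off δ n i ≤ side n * rho δ (lev n i) at hd
      linarith
    refine ⟨ctr δ n i sd k, irad δ n i, (am n i).1, (am n i).2, hr,
      by linarith [irad_le_off (δ := δ) n i], hk.trans hd2, a1, a2, a3, a4, a5, a6, a7,
      fun z hz => ?_⟩
    have hzn : ‖z - cn n‖ ≤ 2 * side n := by
      linarith [norm_ctr hδ n i sd k, norm_sub_le_norm_sub_add_norm_sub z (ctr δ n i sd k) (cn n),
        off_le_quarter hδ n i, irad_le_off (δ := δ) n i]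
    show 1 + ∑' p, T p z = _
    congr 1
    have hsq : ∀ j, sq (n, j) z = 0 := fun j => by
      simp only [sq]; split_ifs
      · refine sqb_zero (rs_pos n) ?_
        have := norm_ctr hδ n i sd k
        have := norm_sub_le_norm_sub_add_norm_sub (ctr δ n i sd k) z (cn n)
        linarith [norm_sub_rev z (ctr δ n i sd k), side_eq n, irad_le_off (δ := δ) n i, rs_pos n]
      · rfl
    rw [tsum_eq_single ((n, i) : ℕ × ℕ) fun p hp => ?_]
    · show sq (n, i) z + ∑ s, one (n, i) s z = _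
      rw [hsq i, zero_add, Finset.sum_eq_single (sd, k) (fun s _ hs => ?_) (by simp)]
      refine isl_zero hr (hl1 (n, i)) ?_
      have := ctr_sep hδ n i (p := s) (q := (sd, k)) hs
      have h64 := irad_le_step (δ := δ) n i
      have : 2 * side n / num δ n i = 2 * (side n / num δ n i) := by ring
      have := norm_sub_le_norm_sub_add_norm_sub (ctr δ n i s.1 s.2) z (ctr δ n i sd k)
      show 7 * irad δ n i ≤ ‖z - ctr δ n i s.1 s.2‖
      rw [norm_sub_rev z]
      linarith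
    · obtain ⟨pn, pi⟩ := p
      by_cases h : pn = n
      · subst h
        have hne : pi ≠ i := fun h' => hp (by rw [h'])
        show sq (pn, pi) z + ∑ s, one (pn, pi) s z = 0
        rw [hsq pi, zero_add]
        refine Finset.sum_eq_zero fun s _ => isl_zero (hrp (pn, pi)) (hl1 (pn, pi)) ?_
        have := norm_ctr hδ pn pi s.1 s.2
        have := norm_ctr hδ pn i sd k
        have := irad_le_off (δ := δ) pn pi
        have := irad_le_off (δ := δ) pn i
        have := off_pos hδ pn pi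
        have := norm_sub_le_norm_sub_add_norm_sub (ctr δ pn pi s.1 s.2) z (cn pn)
        have := norm_sub_le_norm_sub_add_norm_sub z (ctr δ pn i sd k) (cn pn)
        have := norm_sub_le_norm_sub_add_norm_sub z (ctr δ pn pi s.1 s.2) (cn pn)
        have := norm_sub_le_norm_sub_add_norm_sub (ctr δ pn i sd k) z (cn pn)
        have := norm_sub_rev z (ctr δ pn i sd k)
        have := norm_sub_rev z (ctr δ pn pi s.1 s.2)
        show 7 * irad δ pn pi ≤ ‖z - ctr δ pn pi s.1 s.2‖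
        rcases lt_or_gt_of_ne hne with hlt | hlt
        · have := off_lt hδ pn hlt
          linarith
        · have := off_lt hδ pn hlt
          linarith
      · exact far_of_other h hzn

end Vale.Agent.P229.Final
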