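import Vale.Agent.P229.Calc
import Vale.Agent.P229.Spec

/-
P229: rescaling of a height function around an island centre.
-/

namespace Vale.Agent.P229.Final

open Vale.Agent.P229
open scoped ContDiff

/-- Rotation by `(cs, sn)` followed by dilation by `r`. -/
noncomputable def rot (r cs sn : ℝ) : P2 →L[ℝ] P2 :=
  ((r * cs) • ContinuousLinearMap.fst ℝ ℝ ℝ - (r * sn) • ContinuousLinearMap.snd ℝ ℝ ℝ).prod
    ((r * sn) • ContinuousLinearMap.fst ℝ ℝ ℝ + (r * cs) • ContinuousLinearMap.snd ℝ ℝ ℝ)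

/-- The similarity `X ↦ c + r R X`. -/
noncomputable def simil (c : P2) (r cs sn : ℝ) (X : P2) : P2 := rot r cs sn X + c

variable {c : P2} {r cs sn : ℝ} {g : P2 → ℝ} {X : P2}

lemma rot_apply (r cs sn : ℝ) (X : P2) :
    rot r cs sn X = (r * cs * X.1 - r * sn * X.2, r * sn * X.1 + r * cs * X.2) := by
  simp [rot]

lemma hasFDerivAt_simil (c : P2) (r cs sn : ℝ) (X : P2) :
    HasFDerivAt (simil c r cs sn) (rot r cs sn) X :=
  ((rot r cs sn).hasFDerivAt).add_const c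

lemma contDiff_simil (c : P2) (r cs sn : ℝ) : ContDiff ℝ ∞ (simil c r cs sn) :=
  (rot r cs sn).contDiff.add contDiff_const

lemma fderiv_apply_eq (g : P2 → ℝ) (z : P2) (a b : ℝ) :
    fderiv ℝ g z (a, b) = a * dp g z + b * dy g z := by
  have e : ((a, b) : P2) = a • ((1, 0) : P2) + b • ((0, 1) : P2) := by simp
  rw [e, map_add, map_smul, map_smul]
  simp [dp, dy]

lemma dp_simil (hg : DifferentiableAt ℝ g (simil c r cs sn X)) :
    dp (fun v => g (simil c r cs sn v)) X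
      = r * cs * dp g (simil c r cs sn X) + r * sn * dy g (simil c r cs sn X) := by
  have h := (hg.hasFDerivAt.comp X (hasFDerivAt_simil c r cs sn X)).fderiv
  show fderiv ℝ (g ∘ simil c r cs sn) X (1, 0) = _
  rw [h, ContinuousLinearMap.comp_apply, rot_apply, fderiv_apply_eq]
  simp

lemma dy_simil (hg : DifferentiableAt ℝ g (simil c r cs sn X)) :
    dy (fun v => g (simil c r cs sn v)) X
      = -(r * sn * dp g (simil c r cs sn X)) + r * cs * dy g (simil c r cs sn X) := by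
  have h := (hg.hasFDerivAt.comp X (hasFDerivAt_simil c r cs sn X)).fderiv
  show fderiv ℝ (g ∘ simil c r cs sn) X (0, 1) = _
  rw [h, ContinuousLinearMap.comp_apply, rot_apply, fderiv_apply_eq]
  simp

lemma rot_norm_le (hr : 0 ≤ r) (hcs : cs ^ 2 + sn ^ 2 = 1) : ‖rot r cs sn‖ ≤ 2 * r := by
  refine ContinuousLinearMap.opNorm_le_bound _ (by positivity) fun v => ?_
  have a : |cs| ≤ 1 := abs_le_of_sq_le_sq (by nlinarith [sq_nonneg sn]) one_pos.le |> fun h => h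
  have b : |sn| ≤ 1 := abs_le_of_sq_le_sq (by nlinarith [sq_nonneg cs]) one_pos.le |> fun h => h
  have h1 : |v.1| ≤ ‖v‖ := norm_fst_le v
  have h2 : |v.2| ≤ ‖v‖ := norm_snd_le v
  have q : ∀ s t : ℝ, |s| ≤ 1 → |t| ≤ ‖v‖ → |r * s * t| ≤ r * ‖v‖ := by
    intro s t hs ht
    rw [abs_mul, abs_mul, abs_of_nonneg hr]
    nlinarith [mul_le_mul hs ht (abs_nonneg _) zero_le_one]
  rw [rot_apply, Prod.norm_def]
  refine max_le ?_ ?_
  · exact (abs_sub _ _).trans (by linarith [q cs v.1 a h1, q sn v.2 b h2])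
  · exact (abs_add_le _ _).trans (by linarith [q sn v.1 b h1, q cs v.2 a h2])

lemma norm_iter_simil (hg : ContDiff ℝ ∞ g) (hr : 0 ≤ r) (hcs : cs ^ 2 + sn ^ 2 = 1) (k : ℕ) :
    ‖iteratedFDeriv ℝ k (fun v => g (simil c r cs sn v)) X‖
      ≤ ‖iteratedFDeriv ℝ k g (simil c r cs sn X)‖ * (2 * r) ^ k := by
  have hg' : ContDiff ℝ ∞ (fun u => g (u + c)) := hg.comp (contDiff_id.add contDiff_const)
  have e := ContinuousLinearMap.iteratedFDeriv_comp_right (rot r cs sn) hg' X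
    (i := k) (WithTop.coe_le_coe.2 le_top)
  show ‖iteratedFDeriv ℝ k ((fun u => g (u + c)) ∘ rot r cs sn) X‖ ≤ _
  rw [e, iteratedFDeriv_comp_add_right]
  refine (ContinuousMultilinearMap.norm_compContinuousLinearMap_le _ _).trans ?_
  refine mul_le_mul_of_nonneg_left ?_ (norm_nonneg _)
  simpa using Finset.prod_le_prod (s := (Finset.univ : Finset (Fin k)))
    (fun _ _ => norm_nonneg _) (fun _ _ => rot_norm_le hr hcs)

/-- Derivative bounds on a convex set from one value and a bound one order higher. -/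
lemma iter_step {f : P2 → ℝ} {K : Set P2} (hf : ContDiff ℝ ∞ f) (hK : Convex ℝ K)
    (h0 : (0 : P2) ∈ K) (hd : ∀ X ∈ K, ‖X‖ ≤ 7) {k : ℕ} {A B : ℝ} (hB : 0 ≤ B)
    (hz : ‖iteratedFDeriv ℝ k f 0‖ ≤ A)
    (hk : ∀ X ∈ K, ‖iteratedFDeriv ℝ (k + 1) f X‖ ≤ B) :
    ∀ X ∈ K, ‖iteratedFDeriv ℝ k f X‖ ≤ A + 7 * B := by
  intro X hX
  have hdiff : ∀ y ∈ K, DifferentiableAt ℝ (iteratedFDeriv ℝ k f) y := fun y _ =>
    ((hf.differentiable_iteratedFDeriv (WithTop.coe_lt_coe.2 (ENat.natCast_lt_top k))) y)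
  have hb : ∀ y ∈ K, ‖fderiv ℝ (iteratedFDeriv ℝ k f) y‖ ≤ B := fun y hy => by
    rw [norm_fderiv_iteratedFDeriv]; exact hk y hy
  have h := hK.norm_image_sub_le_of_norm_fderiv_le hdiff hb h0 hX
  have h7 : ‖X - 0‖ ≤ 7 := by simpa using hd X hX
  have := norm_le_norm_add_norm_sub' (iteratedFDeriv ℝ k f X) (iteratedFDeriv ℝ k f 0)
  nlinarith [mul_le_mul_of_nonneg_left h7 hB]

/-- Closeness in all orders up to 18 from jets at the centre and higher derivative bounds. -/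
lemma close_of_jets {f : P2 → ℝ} {K : Set P2} (hf : ContDiff ℝ ∞ f) (hK : Convex ℝ K)
    (h0 : (0 : P2) ∈ K) (hd : ∀ X ∈ K, ‖X‖ ≤ 7) {B : ℝ} (hB : 0 ≤ B)
    (hv : f 0 = 0) (h1 : fderiv ℝ f 0 = 0) (h2 : ‖iteratedFDeriv ℝ 2 f 0‖ ≤ B)
    (hh : ∀ k, 3 ≤ k → k ≤ 18 → ∀ X ∈ K, ‖iteratedFDeriv ℝ k f X‖ ≤ B) :
    ∀ k ≤ 18, ∀ X ∈ K, ‖iteratedFDeriv ℝ k f X‖ ≤ 1000 * B := by
  have s2 := iter_step hf hK h0 hd hB h2 (hh 3 le_rfl (by norm_num))
  have z1 : ‖iteratedFDeriv ℝ 1 f 0‖ ≤ 0 := by rw [norm_iteratedFDeriv_one, h1, norm_zero]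
  have s1 := iter_step hf hK h0 hd (by positivity) z1 s2
  have z0 : ‖iteratedFDeriv ℝ 0 f 0‖ ≤ 0 := by rw [norm_iteratedFDeriv_zero, hv, norm_zero]
  have s0 := iter_step hf hK h0 hd (by positivity) z0 s1
  intro k hk X hX
  match k with
  | 0 => linarith [s0 X hX]
  | 1 => linarith [s1 X hX]
  | 2 => linarith [s2 X hX]
  | k + 3 => linarith [hh (k + 3) (by omega) hk X hX]

lemma convex_rsq (a : ℝ) : Convex ℝ {X : P2 | rsq X < a} := by
  have h1 : ConvexOn ℝ Set.univ (fun X : P2 => X.1 ^ 2) :=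
    by simpa [Function.comp_def] using
      (Even.convexOn_pow (𝕜 := ℝ) (n := 2) (by norm_num)).comp_linearMap (LinearMap.fst ℝ ℝ ℝ)
  have h2 : ConvexOn ℝ Set.univ (fun X : P2 => X.2 ^ 2) :=
    by simpa [Function.comp_def] using
      (Even.convexOn_pow (𝕜 := ℝ) (n := 2) (by norm_num)).comp_linearMap (LinearMap.snd ℝ ℝ ℝ)
  simpa [rsq] using (h1.add h2).convex_lt a

lemma norm_le_of_rsq (hX : rsq X < 40) : ‖X‖ ≤ 7 := by
  rw [Prod.norm_def]
  unfold rsq at hX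
  refine max_le ?_ ?_ <;> rw [Real.norm_eq_abs, abs_le] <;>
    constructor <;> nlinarith [sq_nonneg X.1, sq_nonneg X.2]

lemma rsq_rot (hcs : cs ^ 2 + sn ^ 2 = 1) (X : P2) : rsq (rot 1 cs sn X) = rsq X := by
  simp only [rot_apply, rsq]
  linear_combination (X.1 ^ 2 + X.2 ^ 2) * hcs

end Vale.Agent.P229.Final
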